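import Vale.Agent.Lib.P090.Tree

/-!
# The test functions and the core inequality
-/

set_option linter.unusedSectionVars false
set_option linter.unusedVariables false

namespace Vale.Agent.Lib.P090

open Metric

variable {F N X : Type}

/-- Truncated graph distance, as a natural number. -/
noncomputable def dhat (Q : SimpleGraph F) (T : ℕ) (a b : F) : ℕ :=
  (min (Q.edist a b) (T : ℕ∞)).toNat

section dhat

variable {Q : SimpleGraph F} {T : ℕ}

theorem coe_dhat (a b : F) : ((dhat Q T a b : ℕ) : ℕ∞) = min (Q.edist a b) (T : ℕ∞) := by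
  unfold dhat
  apply ENat.natCast_toNat
  exact ne_top_of_le_ne_top (by simp) (min_le_right _ _)

theorem dhat_le (a b : F) : dhat Q T a b ≤ T := by
  have : ((dhat Q T a b : ℕ) : ℕ∞) ≤ (T : ℕ∞) := by
    rw [coe_dhat]; exact min_le_right _ _
  exact_mod_cast this

theorem dhat_comm (a b : F) : dhat Q T a b = dhat Q T b a := by
  unfold dhat; rw [SimpleGraph.edist_comm]

@[simp] theorem dhat_self (a : F) : dhat Q T a a = 0 := by
  simp [dhat]

theorem dhat_triangle (a b c : F) : dhat Q T a c ≤ dhat Q T a b + dhat Q T b c := by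
  have h : ((dhat Q T a c : ℕ) : ℕ∞) ≤ ((dhat Q T a b + dhat Q T b c : ℕ) : ℕ∞) := by
    push_cast
    rw [coe_dhat, coe_dhat, coe_dhat]
    rcases le_total (Q.edist a b) (T : ℕ∞) with h1 | h1 <;>
      rcases le_total (Q.edist b c) (T : ℕ∞) with h2 | h2
    · rw [min_eq_left h1, min_eq_left h2]
      exact (min_le_left _ _).trans SimpleGraph.edist_triangle
    · rw [min_eq_left h1, min_eq_right h2]
      exact (min_le_right _ _).trans le_add_self
    · rw [min_eq_right h1, min_eq_left h2]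
      exact (min_le_right _ _).trans le_self_add
    · rw [min_eq_right h1, min_eq_right h2]
      exact (min_le_right _ _).trans le_self_add
  exact_mod_cast h

theorem edist_of_dhat_lt {a b : F} (h : dhat Q T a b < T) : Q.edist a b = dhat Q T a b := by
  have h1 := coe_dhat (Q := Q) (T := T) a b
  have h2 : ((dhat Q T a b : ℕ) : ℕ∞) < (T : ℕ∞) := by exact_mod_cast h
  rcases le_total (Q.edist a b) (T : ℕ∞) with h3 | h3
  · rw [min_eq_left h3] at h1; exact h1.symm
  · rw [min_eq_right h3] at h1; rw [h1] at h2; exact absurd h2 (lt_irrefl _)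

theorem dhat_abs_sub_le (a b x : F) :
    |((dhat Q T a x : ℕ) : ℝ) - (dhat Q T b x : ℕ)| ≤ (dhat Q T a b : ℕ) := by
  have h1 := dhat_triangle (Q := Q) (T := T) a b x
  have h2 := dhat_triangle (Q := Q) (T := T) b a x
  rw [dhat_comm b a] at h2
  rw [abs_le]
  constructor
  · have : ((dhat Q T b x : ℕ) : ℝ) ≤ (dhat Q T a b : ℕ) + (dhat Q T a x : ℕ) := by
      exact_mod_cast h2
    linarith
  · have : ((dhat Q T a x : ℕ) : ℝ) ≤ (dhat Q T a b : ℕ) + (dhat Q T b x : ℕ) := by
      exact_mod_cast h1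
    linarith

end dhat

/-- Real-valued Lipschitz condition. -/
def IsLip [PseudoMetricSpace N] (K : ℝ) (f : N → ℝ) : Prop := ∀ x y, |f x - f y| ≤ K * dist x y

open Classical in
/-- Neighbours of a vertex in a graph on a finite type. -/
noncomputable def nbrs [Fintype X] (H : SimpleGraph X) (u : X) : Finset X :=
  Finset.univ.filter (fun v => H.Adj u v)

theorem mem_nbrs [Fintype X] {H : SimpleGraph X} {u v : X} : v ∈ nbrs H u ↔ H.Adj u v := by
  simp [nbrs]

/-- All the data of the core inequality. -/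
structure CoreData [MetricSpace N] [Fintype X] (Q : SimpleGraph F) (G : SimpleGraph N)
    (cN : N → F) (H : SimpleGraph X) (cX : X → F) (Z : Set N) (s : F → N)
    (Pa : X → N → X → N → Prop) (r D T : ℕ) : Prop where
  hQ : NoClosed Q (2 * (T + r + 2) + 3)
  homN : ∀ p q, G.Adj p q → Q.Adj (cN p) (cN q)
  locN : ∀ p q₁ q₂, G.Adj p q₁ → G.Adj p q₂ → cN q₁ = cN q₂ → q₁ = q₂
  homX : ∀ u v, H.Adj u v → Q.Adj (cX u) (cX v)
  locX : ∀ u v₁ v₂, H.Adj u v₁ → H.Adj u v₂ → cX v₁ = cX v₂ → v₁ = v₂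
  dist_walk : ∀ p q : N, dist p q < (r : ℝ) → G.edist p q < (r : ℕ∞)
  dist_color : ∀ p q : N, ((dhat Q T (cN p) (cN q) : ℕ) : ℝ) ≤ dist p q
  closedZ : ∀ p q, p ∈ Z → G.Adj p q → q ∈ Z
  s_color : ∀ a, cN (s a) = a
  s_mem : ∀ a, s a ∈ Z
  s_iso : ∀ a q, ¬ G.Adj (s a) q
  pa_adj : ∀ u y u' y', Pa u y u' y' → G.Adj y y'
  pa_fun : ∀ u y u₁ y₁ u₂ y₂, Pa u y u₁ y₁ → Pa u y u₂ y₂ → u₁ = u₂
  pa_tot : ∀ u u' y y', H.Adj u u' → G.Adj y y' → y ∈ Z → cX u = cN y → cX u' = cN y' →
    Pa u y u' y' ∨ Pa u' y' u y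
  deg_le : ∀ u, (nbrs H u).card ≤ D
  rpos : 0 < r
  Dpos : 0 < D
  T_eq : T = D * r

section Defs

variable (Q : SimpleGraph F) (G : SimpleGraph N) (cN : N → F) (cX : X → F)
  (Pa : X → N → X → N → Prop) (r T : ℕ)

/-- `w` is on the `x'` side of the edge `x x'`. -/
def Far (x x' w : F) : Prop := Q.edist x' w < Q.edist x w

/-- The point `z` is close, in its sheet, to a point over `cX u` whose edge to `u'` is directed
away from `u`. -/
def Ramp (u u' : X) (z : N) : Prop :=
  ∃ y y', G.edist z y < (r : ℕ∞) ∧ cN y = cX u ∧ Pa u y u' y'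

/-- Truncated colour distance to the edge `x x'`. -/
noncomputable def mv (x x' : F) (z : N) : ℕ :=
  min (dhat Q T (cN z) x) (dhat Q T (cN z) x')

/-- The set on which the test function for the directed edge takes its lowest value. -/
def PP (Z : Set N) (u u' : X) : Set N :=
  {z | z ∈ Z ∧ mv Q cN T (cX u) (cX u') z < T ∧ ¬ Far Q (cX u) (cX u') (cN z) ∧
    ¬ Ramp G cN cX Pa r u u' z}

/-- The cut-off. -/
noncomputable def theta (x x' : F) (z : N) : ℝ :=
  max 0 (1 - ((mv Q cN T x x' z : ℕ) : ℝ) / T)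

variable [PseudoMetricSpace N]

/-- The antisymmetric transition across the edge. -/
noncomputable def gam (Z : Set N) (u u' : X) (z : N) : ℝ :=
  (min (r : ℝ) (infDist z (PP Q G cN cX Pa r T Z u u')) -
    min (r : ℝ) (infDist z (PP Q G cN cX Pa r T Z u' u))) / 2

/-- The test function of a directed edge. -/
noncomputable def hh (Z : Set N) (u u' : X) (z : N) : ℝ :=
  theta Q cN T (cX u) (cX u') z * gam Q G cN cX Pa r T Z u u' z

end Defs

section Lemmas

variable {Q : SimpleGraph F} {G : SimpleGraph N}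
  {cN : N → F} {H : SimpleGraph X} {cX : X → F} {Z : Set N} {s : F → N}
  {Pa : X → N → X → N → Prop} {r D T : ℕ}

theorem CoreData.Tpos [MetricSpace N] [Fintype X] (h : CoreData Q G cN H cX Z s Pa r D T) : 0 < T := by
  rw [h.T_eq]; exact Nat.mul_pos h.Dpos h.rpos

theorem CoreData.r_le_T [MetricSpace N] [Fintype X] (h : CoreData Q G cN H cX Z s Pa r D T) : r ≤ T := by
  rw [h.T_eq]; exact Nat.le_mul_of_pos_left _ h.Dpos

/-- Crossing a walk. -/
theorem walk_crossing {g : ℕ} (hQ : NoClosed Q g) (homN : ∀ p q, G.Adj p q → Q.Adj (cN p) (cN q))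
    {x x' : F} (hx : Q.Adj x x') {z z' : N} (p : G.Walk z z') :
    ∀ (k₀ : ℕ), Q.edist x (cN z) = k₀ → 2 * (k₀ + p.length) + 3 ≤ g →
      ¬ Far Q x x' (cN z) → Far Q x x' (cN z') →
      ∃ y y' : N, G.Adj y y' ∧ cN y = x ∧ cN y' = x' ∧ G.Reachable z y ∧
        G.edist z y < (p.length : ℕ∞) ∧ G.edist y' z' < (p.length : ℕ∞) := by
  induction p with
  | nil =>
    intro _ _ _ h1 h2
    exact absurd h2 h1
  | @cons z a z' hadj p' ih =>
    intro k₀ hk hg h1 h2
    simp only [SimpleGraph.Walk.length_cons] at hg ⊢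
    by_cases hfar : Far Q x x' (cN a)
    · obtain ⟨e1, e2⟩ := hQ.crossing hx (homN _ _ hadj) h1 hfar hk (by omega)
      refine ⟨z, a, hadj, e1, e2, SimpleGraph.Reachable.refl _, ?_, ?_⟩
      · simp
      · refine lt_of_le_of_lt (SimpleGraph.edist_le p') ?_
        exact_mod_cast Nat.lt_succ_self _
    · have hle : Q.edist x (cN a) ≤ (k₀ : ℕ∞) + 1 := by
        rw [← hk, SimpleGraph.edist_comm (u := x), SimpleGraph.edist_comm (u := x)]
        exact edist_le_of_adj_add (homN _ _ hadj).symm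
      obtain ⟨k₁, hk₁⟩ := ENat.ne_top_iff_exists.mp (ne_top_of_le_ne_top (by simp) hle)
      have hk₁le : k₁ ≤ k₀ + 1 := by
        rw [← hk₁] at hle; exact_mod_cast hle
      obtain ⟨y, y', hyy, c1, c2, hr, d1, d2⟩ :=
        ih k₁ hk₁.symm (by omega) hfar h2
      refine ⟨y, y', hyy, c1, c2, (hadj.reachable).trans hr, ?_, ?_⟩
      · have h3 : G.edist z y ≤ G.edist a y + 1 := edist_le_of_adj_add hadj
        refine lt_of_le_of_lt h3 ?_
        obtain ⟨j, hj⟩ := ENat.ne_top_iff_exists.mp (ne_top_of_lt d1)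
        rw [← hj] at d1 ⊢
        have : j < p'.length := by exact_mod_cast d1
        exact_mod_cast (by omega : j + 1 < p'.length + 1)
      · refine lt_of_lt_of_le d2 ?_
        exact_mod_cast Nat.le_succ _

theorem mem_of_reachable (closedZ : ∀ p q, p ∈ Z → G.Adj p q → q ∈ Z) {z y : N}
    (hz : z ∈ Z) (h : G.Reachable z y) : y ∈ Z := by
  obtain ⟨p⟩ := h
  induction p with
  | nil => exact hz
  | cons hadj _ ih => exact ih (closedZ _ _ hz hadj)

/-- Near the edge, colour distance to `x` is finite and bounded. -/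
theorem edist_le_of_mv_lt {x x' : F} (hx : Q.Adj x x') {z : N}
    (hm : mv Q cN T x x' z < T) : ∃ k : ℕ, Q.edist x (cN z) = k ∧ k ≤ T + 1 := by
  unfold mv at hm
  rcases min_lt_iff.mp hm with h | h
  · refine ⟨dhat Q T (cN z) x, ?_, by omega⟩
    rw [SimpleGraph.edist_comm]; exact edist_of_dhat_lt h
  · have h1 := edist_of_dhat_lt h
    have hle : Q.edist x (cN z) ≤ ((dhat Q T (cN z) x' : ℕ) : ℕ∞) + 1 := by
      rw [← h1, SimpleGraph.edist_comm (u := cN z)]
      exact edist_le_of_adj_add hx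
    obtain ⟨k, hk⟩ := ENat.ne_top_iff_exists.mp (ne_top_of_le_ne_top (by simp) hle)
    refine ⟨k, hk.symm, ?_⟩
    rw [← hk] at hle
    have : k ≤ dhat Q T (cN z) x' + 1 := by exact_mod_cast hle
    omega

section Sep

variable [MetricSpace N] [Fintype X]

/-- The two low sets of an edge are far apart. -/
theorem CoreData.sep (h : CoreData Q G cN H cX Z s Pa r D T) {u u' : X} (huu : H.Adj u u') {z z' : N}
    (hz : z ∈ PP Q G cN cX Pa r T Z u u') (hz' : z' ∈ PP Q G cN cX Pa r T Z u' u) :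
    (r : ℝ) ≤ dist z z' := by
  by_contra hlt
  push Not at hlt
  have hwalk := h.dist_walk _ _ hlt
  obtain ⟨k, hk⟩ := ENat.ne_top_iff_exists.mp (ne_top_of_lt hwalk)
  obtain ⟨p, hp⟩ := SimpleGraph.exists_walk_of_edist_eq_coe hk.symm
  have hkr : k < r := by rw [← hk] at hwalk; exact_mod_cast hwalk
  have hx : Q.Adj (cX u) (cX u') := h.homX _ _ huu
  obtain ⟨hzZ, hzm, hzF, hzR⟩ := hz
  obtain ⟨hzZ', hzm', hzF', hzR'⟩ := hz'
  obtain ⟨k₀, hk₀, hk₀le⟩ := edist_le_of_mv_lt hx hzm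
  obtain ⟨k₁, hk₁, hk₁le⟩ := edist_le_of_mv_lt hx.symm hzm'
  have hfar : Far Q (cX u) (cX u') (cN z') := by
    have hne := (h.hQ).edist_ne hx.symm hk₁ (by omega)
    have hle : Q.edist (cX u') (cN z') ≤ Q.edist (cX u) (cN z') := not_lt.mp hzF'
    show Q.edist (cX u') (cN z') < Q.edist (cX u) (cN z')
    rw [hk₁] at hle ⊢
    exact lt_of_le_of_ne hle (Ne.symm hne)
  obtain ⟨y, y', hyy, c1, c2, hr, d1, d2⟩ :=
    walk_crossing h.hQ h.homN hx p k₀ hk₀ (by rw [hp]; omega) hzF hfar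
  rw [hp] at d1 d2
  have hyZ : y ∈ Z := mem_of_reachable h.closedZ hzZ hr
  have hkr' : (k : ℕ∞) ≤ (r : ℕ∞) := by exact_mod_cast hkr.le
  rcases h.pa_tot u u' y y' huu hyy hyZ c1.symm c2.symm with hpa | hpa
  · exact hzR ⟨y, y', lt_of_lt_of_le d1 hkr', c1, hpa⟩
  · refine hzR' ⟨y', y, ?_, c2, hpa⟩
    rw [SimpleGraph.edist_comm]
    exact lt_of_lt_of_le d2 hkr'

/-- The section point lies in the low set. -/
theorem CoreData.s_mem_PP (h : CoreData Q G cN H cX Z s Pa r D T) (u u' : X) :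
    s (cX u) ∈ PP Q G cN cX Pa r T Z u u' := by
  refine ⟨h.s_mem _, ?_, ?_, ?_⟩
  · unfold mv
    rw [h.s_color]
    simp [h.Tpos]
  · unfold Far
    rw [h.s_color]
    simp
  · rintro ⟨y, y', hd, -, hpa⟩
    have hne := ne_top_of_lt hd
    obtain ⟨p, -⟩ := SimpleGraph.exists_walk_of_edist_ne_top hne
    cases p with
    | nil => exact h.s_iso _ _ (h.pa_adj _ _ _ _ hpa)
    | cons hadj _ => exact h.s_iso _ _ hadj

theorem CoreData.PP_nonempty (h : CoreData Q G cN H cX Z s Pa r D T) (u u' : X) :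
    (PP Q G cN cX Pa r T Z u u').Nonempty := ⟨_, h.s_mem_PP u u'⟩

/-! ### Values of `gam` -/

theorem CoreData.gam_low (h : CoreData Q G cN H cX Z s Pa r D T) {u u' : X} (huu : H.Adj u u')
    {z : N} (hz : z ∈ PP Q G cN cX Pa r T Z u u') :
    gam Q G cN cX Pa r T Z u u' z = -((r : ℝ) / 2) := by
  unfold gam
  have h1 : infDist z (PP Q G cN cX Pa r T Z u u') = 0 := infDist_zero_of_mem hz
  have h2 : (r : ℝ) ≤ infDist z (PP Q G cN cX Pa r T Z u' u) := by
    rw [le_infDist (h.PP_nonempty u' u)]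
    intro y hy
    exact h.sep huu hz hy
  rw [h1, min_eq_right (by positivity), min_eq_left h2]
  ring

theorem gam_antisymm {u u' : X} {z : N} :
    gam Q G cN cX Pa r T Z u' u z = - gam Q G cN cX Pa r T Z u u' z := by
  unfold gam; ring

theorem min_infDist_nonneg (S : Set N) (z : N) : 0 ≤ min (r : ℝ) (infDist z S) :=
  le_min (by positivity) infDist_nonneg

theorem min_infDist_le (S : Set N) (z : N) : min (r : ℝ) (infDist z S) ≤ r := min_le_left _ _

theorem min_infDist_lip (S : Set N) (hS : S.Nonempty) (z z' : N) :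
    |min (r : ℝ) (infDist z S) - min (r : ℝ) (infDist z' S)| ≤ dist z z' := by
  refine (abs_min_sub_min_le_max _ _ _ _).trans ?_
  rw [max_le_iff]
  constructor
  · simp
  · rw [abs_le]
    have h1 := infDist_le_infDist_add_dist (s := S) (x := z) (y := z')
    have h2 := infDist_le_infDist_add_dist (s := S) (x := z') (y := z)
    rw [dist_comm] at h2
    constructor <;> linarith

theorem gam_abs_le {u u' : X} {z : N} : |gam Q G cN cX Pa r T Z u u' z| ≤ (r : ℝ) / 2 := by
  unfold gam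
  have h1 := min_infDist_nonneg (r := r) (PP Q G cN cX Pa r T Z u u') z
  have h2 := min_infDist_nonneg (r := r) (PP Q G cN cX Pa r T Z u' u) z
  have h3 := min_infDist_le (r := r) (PP Q G cN cX Pa r T Z u u') z
  have h4 := min_infDist_le (r := r) (PP Q G cN cX Pa r T Z u' u) z
  rw [abs_le]
  constructor <;> linarith

theorem CoreData.gam_lip (h : CoreData Q G cN H cX Z s Pa r D T) {u u' : X} (z z' : N) :
    |gam Q G cN cX Pa r T Z u u' z - gam Q G cN cX Pa r T Z u u' z'| ≤ dist z z' := by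
  unfold gam
  have h1 := min_infDist_lip (r := r) _ (h.PP_nonempty u u') z z'
  have h2 := min_infDist_lip (r := r) _ (h.PP_nonempty u' u) z z'
  rw [abs_le] at h1 h2 ⊢
  constructor <;> linarith [h1.1, h1.2, h2.1, h2.2]

/-! ### Values of `theta` -/

theorem theta_comm {x x' : F} {z : N} : theta Q cN T x' x z = theta Q cN T x x' z := by
  unfold theta mv; rw [min_comm]

theorem theta_nonneg {x x' : F} {z : N} : 0 ≤ theta Q cN T x x' z := le_max_left _ _

theorem theta_le_one (hT : 0 < T) {x x' : F} {z : N} : theta Q cN T x x' z ≤ 1 := by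
  unfold theta
  apply max_le zero_le_one
  have : 0 ≤ ((mv Q cN T x x' z : ℕ) : ℝ) / T := by positivity
  linarith

theorem mv_lt_of_theta_ne (hT : 0 < T) {x x' : F} {z : N} (h : theta Q cN T x x' z ≠ 0) :
    mv Q cN T x x' z < T := by
  by_contra hc
  push Not at hc
  apply h
  unfold theta
  apply max_eq_left
  have hT' : (0 : ℝ) < T := by exact_mod_cast hT
  have : (1 : ℝ) ≤ ((mv Q cN T x x' z : ℕ) : ℝ) / T := by
    rw [one_le_div hT']
    exact_mod_cast hc
  linarith

theorem CoreData.theta_lip (h : CoreData Q G cN H cX Z s Pa r D T) {x x' : F} (z z' : N) :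
    |theta Q cN T x x' z - theta Q cN T x x' z'| ≤ (1 / (T : ℝ)) * dist z z' := by
  have hT' : (0 : ℝ) < T := by exact_mod_cast h.Tpos
  unfold theta
  rw [max_comm 0, max_comm 0]
  refine (abs_max_sub_max_le_abs _ _ _).trans ?_
  have key : |((mv Q cN T x x' z : ℕ) : ℝ) - (mv Q cN T x x' z' : ℕ)| ≤ dist z z' := by
    unfold mv
    push_cast
    refine (abs_min_sub_min_le_max _ _ _ _).trans ?_
    have hd := h.dist_color z z'
    rw [max_le_iff]
    exact ⟨(dhat_abs_sub_le _ _ _).trans hd, (dhat_abs_sub_le _ _ _).trans hd⟩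
  have e : (1 - ((mv Q cN T x x' z : ℕ) : ℝ) / T) - (1 - ((mv Q cN T x x' z' : ℕ) : ℝ) / T) =
      (1 / (T : ℝ)) * (((mv Q cN T x x' z' : ℕ) : ℝ) - (mv Q cN T x x' z : ℕ)) := by
    field_simp
    ring
  rw [e, abs_mul, abs_of_pos (by positivity : (0 : ℝ) < 1 / T)]
  apply mul_le_mul_of_nonneg_left _ (by positivity)
  rw [abs_sub_comm]
  exact key

theorem CoreData.theta_at_s (h : CoreData Q G cN H cX Z s Pa r D T) (x x' : F) :
    theta Q cN T x x' (s x) = 1 := by
  unfold theta mv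
  rw [h.s_color]
  simp

/-! ### The test functions -/

theorem hh_antisymm {u u' : X} {z : N} :
    hh Q G cN cX Pa r T Z u' u z = - hh Q G cN cX Pa r T Z u u' z := by
  unfold hh
  rw [theta_comm, gam_antisymm]
  ring

/-- Bound for the Lipschitz constant of a product of bounded Lipschitz functions. -/
theorem abs_mul_sub_mul_le {a a' b b' A B La Lb d : ℝ} (ha : |a| ≤ A) (hb' : |b'| ≤ B)
    (hda : |a - a'| ≤ La * d) (hdb : |b - b'| ≤ Lb * d) (hB : 0 ≤ B) (hA : 0 ≤ A) :
    |a * b - a' * b'| ≤ (A * Lb + B * La) * d := by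
  have e : a * b - a' * b' = a * (b - b') + (a - a') * b' := by ring
  rw [e]
  refine (abs_add_le _ _).trans ?_
  rw [abs_mul, abs_mul]
  have h1 : |a| * |b - b'| ≤ A * (Lb * d) :=
    mul_le_mul ha hdb (abs_nonneg _) hA
  have h2 : |a - a'| * |b'| ≤ (La * d) * B :=
    mul_le_mul hda hb' (abs_nonneg _) ((abs_nonneg _).trans hda)
  nlinarith

theorem CoreData.hh_lip (h : CoreData Q G cN H cX Z s Pa r D T) {u u' : X} (z z' : N) :
    |hh Q G cN cX Pa r T Z u u' z - hh Q G cN cX Pa r T Z u u' z'| ≤ 2 * dist z z' := by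
  have hT' : (0 : ℝ) < T := by exact_mod_cast h.Tpos
  have hr' : (0 : ℝ) < r := by exact_mod_cast h.rpos
  have hrT : (r : ℝ) ≤ T := by exact_mod_cast h.r_le_T
  unfold hh
  have h1 : |theta Q cN T (cX u) (cX u') z| ≤ 1 := by
    rw [abs_of_nonneg theta_nonneg]; exact theta_le_one h.Tpos
  have h2 := gam_abs_le (Q := Q) (G := G) (cN := cN) (cX := cX) (Pa := Pa) (r := r) (T := T)
    (Z := Z) (u := u) (u' := u') (z := z')
  have h3 := h.theta_lip (x := cX u) (x' := cX u') z z'
  have h4 := h.gam_lip (u := u) (u' := u') z z'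
  have h5 := abs_mul_sub_mul_le (Lb := 1) (d := dist z z') h1 h2 h3
    (by rw [one_mul]; exact h4) (by positivity) zero_le_one
  refine h5.trans ?_
  apply mul_le_mul_of_nonneg_right _ dist_nonneg
  have : (r : ℝ) / 2 * (1 / T) ≤ 1 := by
    rw [div_mul_div_comm, mul_one, div_le_one (by positivity)]
    linarith
  linarith

/-- The bump function `t = theta * (gam + r / 2)`, which vanishes on the low set. -/
noncomputable def tt (Q : SimpleGraph F) (G : SimpleGraph N) (cN : N → F) (cX : X → F)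
    (Pa : X → N → X → N → Prop) (r T : ℕ) (Z : Set N) (u u' : X) (z : N) : ℝ :=
  theta Q cN T (cX u) (cX u') z * (gam Q G cN cX Pa r T Z u u' z + (r : ℝ) / 2)

theorem CoreData.tt_lip (h : CoreData Q G cN H cX Z s Pa r D T) {u u' : X} (z z' : N) :
    |tt Q G cN cX Pa r T Z u u' z - tt Q G cN cX Pa r T Z u u' z'| ≤ 2 * dist z z' := by
  have hT' : (0 : ℝ) < T := by exact_mod_cast h.Tpos
  have hr' : (0 : ℝ) < r := by exact_mod_cast h.rpos
  have hrT : (r : ℝ) ≤ T := by exact_mod_cast h.r_le_T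
  unfold tt
  have h1 : |theta Q cN T (cX u) (cX u') z| ≤ 1 := by
    rw [abs_of_nonneg theta_nonneg]; exact theta_le_one h.Tpos
  have h2 : |gam Q G cN cX Pa r T Z u u' z' + (r : ℝ) / 2| ≤ r := by
    have := gam_abs_le (Q := Q) (G := G) (cN := cN) (cX := cX) (Pa := Pa) (r := r) (T := T)
      (Z := Z) (u := u) (u' := u') (z := z')
    rw [abs_le] at this ⊢
    constructor <;> linarith [this.1, this.2]
  have h3 := h.theta_lip (x := cX u) (x' := cX u') z z'
  have h4 : |(gam Q G cN cX Pa r T Z u u' z + (r : ℝ) / 2) -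
      (gam Q G cN cX Pa r T Z u u' z' + (r : ℝ) / 2)| ≤ 1 * dist z z' := by
    rw [one_mul]
    have := h.gam_lip (u := u) (u' := u') z z'
    have e : (gam Q G cN cX Pa r T Z u u' z + (r : ℝ) / 2) -
      (gam Q G cN cX Pa r T Z u u' z' + (r : ℝ) / 2) =
      gam Q G cN cX Pa r T Z u u' z - gam Q G cN cX Pa r T Z u u' z' := by ring
    rw [e]; exact this
  have h5 := abs_mul_sub_mul_le (d := dist z z') h1 h2 h3 h4 (by positivity) zero_le_one
  refine h5.trans ?_
  apply mul_le_mul_of_nonneg_right _ dist_nonneg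
  have : (r : ℝ) * (1 / T) ≤ 1 := by
    rw [mul_one_div, div_le_one (by positivity)]
    exact hrT
  linarith

/-- `-hh = (r/2) theta - tt` -/
theorem neg_hh_eq {u u' : X} {z : N} :
    - hh Q G cN cX Pa r T Z u u' z =
      (r : ℝ) / 2 * theta Q cN T (cX u) (cX u') z - tt Q G cN cX Pa r T Z u u' z := by
  unfold hh tt
  ring

theorem tt_eq_zero_of_low (h : CoreData Q G cN H cX Z s Pa r D T) {u u' : X} (huu : H.Adj u u')
    {z : N} (hz : z ∈ PP Q G cN cX Pa r T Z u u') : tt Q G cN cX Pa r T Z u u' z = 0 := by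
  unfold tt
  rw [h.gam_low huu hz]
  ring

open Classical in
/-- For fixed `z ∈ Z` at most two neighbours have `tt ≠ 0`. -/
theorem CoreData.tt_support_card (h : CoreData Q G cN H cX Z s Pa r D T) (u : X) {z : N}
    (hz : z ∈ Z) :
    ((nbrs H u).filter (fun u' => tt Q G cN cX Pa r T Z u u' z ≠ 0)).card ≤ 2 := by
  set A := (nbrs H u).filter (fun u' => mv Q cN T (cX u) (cX u') z < T ∧
    Far Q (cX u) (cX u') (cN z)) with hA
  set B := (nbrs H u).filter (fun u' => Ramp G cN cX Pa r u u' z) with hB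
  have hsub : (nbrs H u).filter (fun u' => tt Q G cN cX Pa r T Z u u' z ≠ 0) ⊆ A ∪ B := by
    intro u' hu'
    rw [Finset.mem_filter] at hu'
    obtain ⟨hn, ht⟩ := hu'
    have huu : H.Adj u u' := mem_nbrs.mp hn
    have hth : theta Q cN T (cX u) (cX u') z ≠ 0 := by
      intro e; apply ht; unfold tt; rw [e, zero_mul]
    have hm := mv_lt_of_theta_ne h.Tpos hth
    have hnot : z ∉ PP Q G cN cX Pa r T Z u u' := fun hp => ht (tt_eq_zero_of_low h huu hp)
    rw [Finset.mem_union, hA, hB, Finset.mem_filter, Finset.mem_filter]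
    by_contra hc
    push Not at hc
    apply hnot
    refine ⟨hz, hm, ?_, ?_⟩
    · intro hf; exact (hc.1 hn hm) hf
    · intro hr; exact (hc.2 hn) hr
  have hAcard : A.card ≤ 1 := by
    rw [Finset.card_le_one]
    intro a ha b hb
    rw [hA, Finset.mem_filter] at ha hb
    obtain ⟨hna, hma, hfa⟩ := ha
    obtain ⟨hnb, hmb, hfb⟩ := hb
    have hua := mem_nbrs.mp hna
    have hub := mem_nbrs.mp hnb
    obtain ⟨k, hk, hkle⟩ := edist_le_of_mv_lt (h.homX _ _ hua) hma
    unfold Far at hfa hfb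
    rw [hk] at hfa hfb
    have e := (h.hQ).eq_of_closer (h.homX _ _ hua) (h.homX _ _ hub) hk hfa hfb (by omega)
    exact h.locX _ _ _ hua hub e
  have hBcard : B.card ≤ 1 := by
    rw [Finset.card_le_one]
    intro a ha b hb
    rw [hB, Finset.mem_filter] at ha hb
    obtain ⟨hna, y₁, y₁', d₁, c₁, p₁⟩ := ha
    obtain ⟨hnb, y₂, y₂', d₂, c₂, p₂⟩ := hb
    have hdd : G.edist y₁ y₂ ≤ G.edist z y₁ + G.edist z y₂ := by
      calc G.edist y₁ y₂ ≤ G.edist y₁ z + G.edist z y₂ := SimpleGraph.edist_triangle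
        _ = _ := by rw [SimpleGraph.edist_comm (u := y₁) (v := z)]
    obtain ⟨j₁, hj₁⟩ := ENat.ne_top_iff_exists.mp (ne_top_of_lt d₁)
    obtain ⟨j₂, hj₂⟩ := ENat.ne_top_iff_exists.mp (ne_top_of_lt d₂)
    rw [← hj₁] at d₁ hdd
    rw [← hj₂] at d₂ hdd
    have hj₁r : j₁ < r := by exact_mod_cast d₁
    have hj₂r : j₂ < r := by exact_mod_cast d₂
    obtain ⟨k, hk⟩ := ENat.ne_top_iff_exists.mp (ne_top_of_le_ne_top (by simp) hdd)
    rw [← hk] at hdd
    have hkle : k ≤ j₁ + j₂ := by exact_mod_cast hdd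
    have hTr := h.r_le_T
    have e : y₁ = y₂ := eq_of_color_eq h.hQ h.homN h.locN hk.symm (by omega) (by rw [c₁, c₂])
    subst e
    exact h.pa_fun _ _ _ _ _ _ p₁ p₂
  calc _ ≤ (A ∪ B).card := Finset.card_le_card hsub
    _ ≤ A.card + B.card := Finset.card_union_le _ _
    _ ≤ 2 := by omega

/-- The function attached to a vertex: minus the sum of the test functions of its edges. -/
noncomputable def GG (Q : SimpleGraph F) (G : SimpleGraph N) (cN : N → F) (H : SimpleGraph X)
    (cX : X → F) (Pa : X → N → X → N → Prop) (r T : ℕ) (Z : Set N) (u : X) : N → ℝ :=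
  ∑ u' ∈ nbrs H u, (fun z => - hh Q G cN cX Pa r T Z u u' z)

theorem GG_apply {u : X} {z : N} : GG Q G cN H cX Pa r T Z u z =
    ∑ u' ∈ nbrs H u, - hh Q G cN cX Pa r T Z u u' z := by
  unfold GG
  rw [Finset.sum_apply]

theorem CoreData.GG_at_s (h : CoreData Q G cN H cX Z s Pa r D T) (u : X) :
    GG Q G cN H cX Pa r T Z u (s (cX u)) = ((nbrs H u).card : ℝ) * ((r : ℝ) / 2) := by
  rw [GG_apply, Finset.sum_congr rfl (g := fun _ => (r : ℝ) / 2), Finset.sum_const, nsmul_eq_mul]
  intro u' hu'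
  unfold hh
  rw [h.theta_at_s, h.gam_low (mem_nbrs.mp hu') (h.s_mem_PP u u')]
  ring

open Classical in
/-- The key Lipschitz estimate on `Z`. -/
theorem CoreData.GG_lip (h : CoreData Q G cN H cX Z s Pa r D T) (u : X) {z z' : N}
    (hz : z ∈ Z) (hz' : z' ∈ Z) :
    |GG Q G cN H cX Pa r T Z u z - GG Q G cN H cX Pa r T Z u z'| ≤ 9 * dist z z' := by
  have hT' : (0 : ℝ) < T := by exact_mod_cast h.Tpos
  have hr' : (0 : ℝ) < r := by exact_mod_cast h.rpos
  have hD' : (0 : ℝ) < D := by exact_mod_cast h.Dpos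
  have hTe : (T : ℝ) = D * r := by rw [h.T_eq]; push_cast; ring
  have hdn : (0 : ℝ) ≤ dist z z' := dist_nonneg
  set A : N → ℝ := fun w => ∑ u' ∈ nbrs H u, theta Q cN T (cX u) (cX u') w with hAdef
  set B : N → ℝ := fun w => ∑ u' ∈ nbrs H u, tt Q G cN cX Pa r T Z u u' w with hBdef
  have hGA : ∀ w, GG Q G cN H cX Pa r T Z u w = (r : ℝ) / 2 * A w - B w := by
    intro w
    rw [GG_apply, Finset.sum_congr rfl (fun u' _ => neg_hh_eq), Finset.sum_sub_distrib,
      Finset.mul_sum]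
  have hA : |A z - A z'| ≤ (D : ℝ) * ((1 / (T : ℝ)) * dist z z') := by
    rw [hAdef]
    simp only
    rw [← Finset.sum_sub_distrib]
    refine (Finset.abs_sum_le_sum_abs _ _).trans ?_
    refine (Finset.sum_le_card_nsmul _ _ ((1 / (T : ℝ)) * dist z z')
      (fun u' _ => h.theta_lip z z')).trans ?_
    rw [nsmul_eq_mul]
    apply mul_le_mul_of_nonneg_right _ (by positivity)
    exact_mod_cast h.deg_le u
  have hB : |B z - B z'| ≤ 8 * dist z z' := by
    set S := (nbrs H u).filter (fun u' => tt Q G cN cX Pa r T Z u u' z ≠ 0) with hS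
    set S' := (nbrs H u).filter (fun u' => tt Q G cN cX Pa r T Z u u' z' ≠ 0) with hS'
    have hW : (S ∪ S').card ≤ 4 := by
      have h1 : S.card ≤ 2 := by
        convert h.tt_support_card u hz
      have h2 : S'.card ≤ 2 := by
        convert h.tt_support_card u hz'
      have h3 := Finset.card_union_le S S'
      omega
    have hsubW : S ∪ S' ⊆ nbrs H u := by
      intro v hv
      rw [Finset.mem_union, hS, hS', Finset.mem_filter, Finset.mem_filter] at hv
      rcases hv with hv | hv <;> exact hv.1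
    have e1 : B z = ∑ u' ∈ S ∪ S', tt Q G cN cX Pa r T Z u u' z := by
      symm
      apply Finset.sum_subset hsubW
      intro v hv hv'
      by_contra hne
      apply hv'
      rw [Finset.mem_union]
      left
      rw [hS, Finset.mem_filter]
      exact ⟨hv, hne⟩
    have e2 : B z' = ∑ u' ∈ S ∪ S', tt Q G cN cX Pa r T Z u u' z' := by
      symm
      apply Finset.sum_subset hsubW
      intro v hv hv'
      by_contra hne
      apply hv'
      rw [Finset.mem_union]
      right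
      rw [hS', Finset.mem_filter]
      exact ⟨hv, hne⟩
    rw [e1, e2, ← Finset.sum_sub_distrib]
    refine (Finset.abs_sum_le_sum_abs _ _).trans ?_
    refine (Finset.sum_le_card_nsmul _ _ (2 * dist z z') (fun u' _ => h.tt_lip z z')).trans ?_
    rw [nsmul_eq_mul]
    have : ((S ∪ S').card : ℝ) ≤ 4 := by exact_mod_cast hW
    nlinarith
  have hval : (r : ℝ) / 2 * ((D : ℝ) * ((1 / (T : ℝ)) * dist z z')) = 1 / 2 * dist z z' := by
    rw [hTe]
    field_simp
  rw [hGA z, hGA z']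
  have e : (r : ℝ) / 2 * A z - B z - ((r : ℝ) / 2 * A z' - B z') =
      (r : ℝ) / 2 * (A z - A z') - (B z - B z') := by ring
  rw [e]
  refine (abs_sub _ _).trans ?_
  rw [abs_mul, abs_of_pos (by positivity : (0 : ℝ) < (r : ℝ) / 2)]
  have : (r : ℝ) / 2 * |A z - A z'| ≤ 1 / 2 * dist z z' := by
    rw [← hval]
    exact mul_le_mul_of_nonneg_left hA (by positivity)
  linarith

/-- McShane extension in the form used below. -/
theorem exists_lip_extension {K : ℝ} (hK : 0 ≤ K) {f : N → ℝ} {S : Set N}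
    (h : ∀ x ∈ S, ∀ y ∈ S, |f x - f y| ≤ K * dist x y) :
    ∃ g : N → ℝ, IsLip K g ∧ ∀ x ∈ S, g x = f x := by
  have hf : LipschitzOnWith (Real.toNNReal K) f S := by
    apply LipschitzOnWith.of_dist_le_mul
    intro x hx y hy
    rw [Real.coe_toNNReal K hK, Real.dist_eq]
    exact h x hx y hy
  obtain ⟨g, hg, heq⟩ := hf.extend_real
  refine ⟨g, ?_, fun x hx => (heq hx).symm⟩
  intro x y
  have := hg.dist_le_mul x y
  rwa [Real.coe_toNNReal K hK, Real.dist_eq] at this

/-- Double sums over directed edges can be swapped. -/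
theorem sum_swap_edges (H : SimpleGraph X) (f : X → X → ℝ) :
    ∑ u, ∑ u' ∈ nbrs H u, f u' u = ∑ u, ∑ u' ∈ nbrs H u, f u u' := by
  rw [Finset.sum_comm' (s' := fun y => nbrs H y) (t' := Finset.univ)]
  intro x y
  simp [mem_nbrs, H.adj_comm]

/-- **The core inequality.** -/
theorem CoreData.main (h : CoreData Q G cN H cX Z s Pa r D T) (Lam : ℕ) (hr : r = 4 * Lam)
    (o' : N) (ho' : o' ∈ Z) (Φ : X → (N → ℝ) →ₗ[ℝ] ℝ)
    (Φ0 : ∀ u f g, (∀ z ∈ Z, f z = g z) → Φ u f = Φ u g)
    (Φ1 : ∀ u u', H.Adj u u' → ∀ (f : N → ℝ) (K : ℝ), 0 ≤ K → IsLip K f →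
      Φ u' f - Φ u f ≤ Lam * K)
    (Φ2 : ∀ u (f : N → ℝ) (K : ℝ), 0 ≤ K → IsLip K f →
      f (s (cX u)) - f o' - 2 * Lam * r * K ≤ Φ u f) :
    (∑ u, ((nbrs H u).card : ℝ)) ≤ 72 * Lam * (Fintype.card X : ℝ) := by
  have hrpos : (0 : ℝ) < r := by exact_mod_cast h.rpos
  have hLpos : (0 : ℝ) < Lam := by
    have : 0 < Lam := by have := h.rpos; omega
    exact_mod_cast this
  have hrr : (r : ℝ) = 4 * Lam := by rw [hr]; push_cast; ring
  -- the function version of the test functions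
  set hf : X → X → N → ℝ := fun u u' z => hh Q G cN cX Pa r T Z u u' z with hhf
  have hanti : ∀ u u', hf u' u = - hf u u' := by
    intro u u'; funext z; exact hh_antisymm
  have hlip : ∀ u u', IsLip 2 (hf u u') := fun u u' z z' => h.hh_lip z z'
  -- the double sum
  set Sd : ℝ := ∑ u, ((nbrs H u).card : ℝ) with hSd
  set P : ℝ := ∑ u, ∑ u' ∈ nbrs H u, Φ u (hf u u') with hP
  have hE1 : (∑ u, ∑ u' ∈ nbrs H u, (Φ u' (hf u u') - Φ u (hf u u'))) ≤ 2 * Lam * Sd := by
    rw [hSd, Finset.mul_sum]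
    apply Finset.sum_le_sum
    intro u _
    have : ∀ u' ∈ nbrs H u, Φ u' (hf u u') - Φ u (hf u u') ≤ Lam * 2 := fun u' hu' =>
      Φ1 u u' (mem_nbrs.mp hu') _ 2 (by norm_num) (hlip u u')
    refine (Finset.sum_le_card_nsmul _ _ _ this).trans ?_
    rw [nsmul_eq_mul]
    apply le_of_eq; ring
  have hE2 : (∑ u, ∑ u' ∈ nbrs H u, (Φ u' (hf u u') - Φ u (hf u u'))) = - (2 * P) := by
    have hswap : (∑ u, ∑ u' ∈ nbrs H u, Φ u' (hf u u')) = ∑ u, ∑ u' ∈ nbrs H u, Φ u (hf u' u) :=
      (sum_swap_edges H (fun a b => Φ b (hf a b))).symm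
    have hswap2 : (∑ u, ∑ u' ∈ nbrs H u, Φ u (hf u' u)) = - P := by
      rw [hP, ← Finset.sum_neg_distrib]
      apply Finset.sum_congr rfl
      intro u _
      rw [← Finset.sum_neg_distrib]
      apply Finset.sum_congr rfl
      intro u' _
      rw [hanti u u', map_neg]
    simp_rw [Finset.sum_sub_distrib]
    rw [hswap, hswap2, ← hP]
    ring
  -- the lower bound at a vertex
  set GGf : X → N → ℝ := fun u => GG Q G cN H cX Pa r T Z u with hGGf
  have hΦG : ∀ u, Φ u (GGf u) = - ∑ u' ∈ nbrs H u, Φ u (hf u u') := by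
    intro u
    rw [hGGf]
    simp only [GG]
    rw [map_sum, ← Finset.sum_neg_distrib]
    apply Finset.sum_congr rfl
    intro u' _
    have : (fun z => - hh Q G cN cX Pa r T Z u u' z) = - hf u u' := rfl
    rw [this, map_neg]
  have hlow : ∀ u, ((nbrs H u).card : ℝ) * ((r : ℝ) / 2) - GGf u o' - 2 * Lam * r * 9 ≤
      Φ u (GGf u) := by
    intro u
    obtain ⟨g, hg, hgeq⟩ := exists_lip_extension (K := 9) (by norm_num) (f := GGf u) (S := Z)
      (fun x hx y hy => h.GG_lip u hx hy)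
    have h1 : Φ u (GGf u) = Φ u g := Φ0 u _ _ (fun z hz => (hgeq z hz).symm)
    have h2 := Φ2 u g 9 (by norm_num) hg
    rw [hgeq _ (h.s_mem _), hgeq _ ho'] at h2
    rw [h1]
    have h3 := h.GG_at_s u
    rw [show GGf u (s (cX u)) = GG Q G cN H cX Pa r T Z u (s (cX u)) from rfl, h3] at h2
    exact h2
  -- the sum of values at the base point vanishes
  have hbase : ∑ u, GGf u o' = 0 := by
    have h1 : ∀ u, GGf u o' = ∑ u' ∈ nbrs H u, - hf u u' o' := fun u => GG_apply
    simp_rw [h1]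
    have h2 : (∑ u, ∑ u' ∈ nbrs H u, - hf u u' o') = ∑ u, ∑ u' ∈ nbrs H u, - hf u' u o' :=
      sum_swap_edges H (fun a b => - hf b a o')
    have h3 : (∑ u, ∑ u' ∈ nbrs H u, - hf u' u o') = - ∑ u, ∑ u' ∈ nbrs H u, - hf u u' o' := by
      rw [← Finset.sum_neg_distrib]
      apply Finset.sum_congr rfl
      intro u _
      rw [← Finset.sum_neg_distrib]
      apply Finset.sum_congr rfl
      intro u' _
      rw [hanti u u']
      simp
    linarith
  -- putting things together
  have hP' : - P = ∑ u, Φ u (GGf u) := by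
    rw [hP, ← Finset.sum_neg_distrib]
    exact Finset.sum_congr rfl (fun u _ => (hΦG u).symm)
  have hsumlow : (∑ u, (((nbrs H u).card : ℝ) * ((r : ℝ) / 2) - GGf u o' - 2 * Lam * r * 9)) ≤
      - P := by
    rw [hP']
    exact Finset.sum_le_sum (fun u _ => hlow u)
  have hexpand : (∑ u, (((nbrs H u).card : ℝ) * ((r : ℝ) / 2) - GGf u o' - 2 * Lam * r * 9)) =
      Sd * ((r : ℝ) / 2) - 0 - (Fintype.card X : ℝ) * (2 * Lam * r * 9) := by
    rw [Finset.sum_sub_distrib, Finset.sum_sub_distrib, hbase, hSd, Finset.sum_mul]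
    simp
  rw [hexpand] at hsumlow
  have hfinal : 2 * Lam * (Sd - 72 * Lam * (Fintype.card X : ℝ)) ≤ 0 := by
    rw [hrr] at hsumlow
    have h6 := hE1
    rw [hE2] at h6
    nlinarith
  have : Sd - 72 * Lam * (Fintype.card X : ℝ) ≤ 0 := by
    by_contra hc
    push Not at hc
    have : 0 < 2 * (Lam : ℝ) * (Sd - 72 * Lam * (Fintype.card X : ℝ)) := by positivity
    linarith
  linarith

end Sep

end Lemmas

end Vale.Agent.Lib.P090
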