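import Vale.Agent.Lib.P090.Defs
import Vale.Agent.Lib.P090.Core

/-!
# From a finite-rank operator on the free space to finitely supported functionals
-/

set_option linter.unusedSectionVars false
set_option linter.unusedVariables false

namespace Vale.Agent.Lib.P090

open Metric

variable {M N : Type} [MetricSpace M] [MetricSpace N]

/-- The element of `Lip₀` attached to a Lipschitz function. -/
noncomputable def ofLip (o : M) (g : M → ℝ) (K : ℝ) (hK : 0 ≤ K) (hg : IsLip K g) : Lip0 o :=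
  ⟨fun x => g x - g o, by simp, K, hK, fun x y => by
    have := hg x y
    have e : (g x - g o) - (g y - g o) = g x - g y := by ring
    simp only [e]
    exact this⟩

theorem toFun_ofLip (o : M) (g : M → ℝ) (K : ℝ) (hK : 0 ≤ K) (hg : IsLip K g) (x : M) :
    (ofLip o g K hK hg).toFun x = g x - g o := rfl

theorem norm_ofLip_le (o : M) (g : M → ℝ) (K : ℝ) (hK : 0 ≤ K) (hg : IsLip K g) :
    ‖ofLip o g K hK hg‖ ≤ K := by
  apply Lip0.norm_le _ hK
  intro x y
  rw [toFun_ofLip, toFun_ofLip]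
  have e : (g x - g o) - (g y - g o) = g x - g y := by ring
  rw [e]
  exact hg x y

@[simp] theorem delta_apply (o x : M) (f : Lip0 o) : delta o x f = f.toFun x := rfl

theorem norm_delta_sub_le (o x y : M) : ‖delta o x - delta o y‖ ≤ dist x y := by
  apply ContinuousLinearMap.opNorm_le_bound _ dist_nonneg
  intro f
  rw [sub_apply, delta_apply, delta_apply, Real.norm_eq_abs]
  rw [mul_comm]
  exact f.abs_sub_le x y

theorem delta_self (o : M) : delta o o = 0 := by
  ext f
  simp [Lip0.toFun_base]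

theorem norm_delta_le (o x : M) : ‖delta o x‖ ≤ dist x o := by
  have := norm_delta_sub_le o x o
  rwa [delta_self, sub_zero] at this

theorem delta_mem_free (o x : M) : delta o x ∈ Free o :=
  Submodule.le_topologicalClosure _ (Submodule.subset_span ⟨x, rfl⟩)

/-- A finitely supported combination of evaluations. -/
noncomputable def wc (o : M) (c : M →₀ ℝ) : StrongDual ℝ (Lip0 o) :=
  c.sum (fun x a => a • delta o x)

/-- The functional on all functions on `N`, induced by a combination of evaluations through `ρ`. -/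
noncomputable def Phic (o : M) (ρ : M → N) (c : M →₀ ℝ) : (N → ℝ) →ₗ[ℝ] ℝ :=
  ∑ x ∈ c.support, c x • ((LinearMap.proj (ρ x) : (N → ℝ) →ₗ[ℝ] ℝ) -
    (LinearMap.proj (ρ o) : (N → ℝ) →ₗ[ℝ] ℝ))

theorem Phic_apply (o : M) (ρ : M → N) (c : M →₀ ℝ) (f : N → ℝ) :
    Phic o ρ c f = ∑ x ∈ c.support, c x * (f (ρ x) - f (ρ o)) := by
  unfold Phic
  rw [LinearMap.sum_apply]
  rfl

theorem isLip_comp {ρ : M → N} (hρ : ∀ x y, dist (ρ x) (ρ y) ≤ dist x y) {f : N → ℝ} {K : ℝ}
    (hK : 0 ≤ K) (hf : IsLip K f) : IsLip K (f ∘ ρ) := fun x y =>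
  (hf _ _).trans (mul_le_mul_of_nonneg_left (hρ x y) hK)

theorem wc_apply_ofLip (o : M) {ρ : M → N} (hρ : ∀ x y, dist (ρ x) (ρ y) ≤ dist x y) (c : M →₀ ℝ)
    {f : N → ℝ} {K : ℝ} (hK : 0 ≤ K) (hf : IsLip K f) :
    wc o c (ofLip o (f ∘ ρ) K hK (isLip_comp hρ hK hf)) = Phic o ρ c f := by
  rw [Phic_apply]
  unfold wc Finsupp.sum
  rw [sum_apply]
  rfl

theorem exists_functionals {X : Type*} [NormedAddCommGroup X] [NormedSpace ℝ X] (o : M)
    (j : X →ₗᵢ[ℝ] StrongDual ℝ (Lip0 o)) (hj : ∀ x, j x ∈ Free o)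
    (dF : M → X) (hdF : ∀ x, j (dF x) = delta o x)
    (ρ : M → N) (hρ : ∀ x y, dist (ρ x) (ρ y) ≤ dist x y)
    (ι : N → M) (hρι : ∀ x, ρ (ι x) = x) (hι : ∀ x y, dist (ι x) (ι y) ≤ dist x y)
    (Rad : ℝ) (hRad : ∀ x, dist (ι x) o ≤ Rad)
    (T : X →L[ℝ] X) (hfin : FiniteDimensional ℝ (LinearMap.range T.toLinearMap))
    (lam : ℝ) (hT : ‖T‖ ≤ lam) (η : ℝ) (hη : 0 < η) (A : Set N)
    (hA : ∀ a ∈ A, ‖T (dF (ι a)) - dF (ι a)‖ < η) :
    ∃ (S : Finset N) (Φ : N → (N → ℝ) →ₗ[ℝ] ℝ),
      (∀ u f g, (∀ z ∈ S, f z = g z) → f (ρ o) = g (ρ o) → Φ u f = Φ u g) ∧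
      (∀ u u' (f : N → ℝ) (K : ℝ), 0 ≤ K → IsLip K f →
        Φ u' f - Φ u f ≤ (lam * dist u u' + 4 * η) * K) ∧
      (∀ u a (f : N → ℝ) (K : ℝ), a ∈ A → 0 ≤ K → IsLip K f →
        f a - f (ρ o) - (lam * dist u a + 3 * η) * K ≤ Φ u f) := by
  classical
  have hlam : 0 ≤ lam := (norm_nonneg _).trans hT
  set R := LinearMap.range T.toLinearMap with hR
  have : ProperSpace R := FiniteDimensional.proper_real R
  -- norms of evaluations
  have hdFn : ∀ x, ‖dF x‖ ≤ dist x o := by
    intro x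
    rw [← j.norm_map, hdF]
    exact norm_delta_le o x
  have hdFs : ∀ x y, ‖dF x - dF y‖ ≤ dist x y := by
    intro x y
    rw [← j.norm_map, map_sub, hdF, hdF]
    exact norm_delta_sub_le o x y
  -- the images of evaluations
  set v : N → R := fun u => ⟨T (dF (ι u)), ⟨_, rfl⟩⟩ with hv
  have hvnorm : ∀ u, ‖v u‖ ≤ lam * Rad := by
    intro u
    have h1 : ‖v u‖ = ‖T (dF (ι u))‖ := rfl
    rw [h1]
    refine (T.le_opNorm _).trans ?_
    have h2 : ‖dF (ι u)‖ ≤ Rad := (hdFn (ι u)).trans (hRad u)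
    exact mul_le_mul hT h2 (norm_nonneg _) hlam
  -- a finite net
  obtain ⟨t, -, htfin, htcov⟩ :=
    (isCompact_closedBall (0 : R) (lam * Rad)).finite_cover_balls hη
  -- approximate points of `R` by finite combinations
  have happrox : ∀ r : R, ∃ c : M →₀ ℝ, ‖j (r : X) - wc o c‖ < η := by
    intro r
    have hmem := hj (r : X)
    have hmem' : j (r : X) ∈
        closure ((Submodule.span ℝ (Set.range (delta o)) : Submodule ℝ _) : Set (StrongDual ℝ (Lip0 o))) := by
      rw [← Submodule.topologicalClosure_coe]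
      exact hmem
    obtain ⟨b, hb, hdist⟩ := Metric.mem_closure_iff.mp hmem' η hη
    obtain ⟨c, hc⟩ := Finsupp.mem_span_range_iff_exists_finsupp.mp hb
    refine ⟨c, ?_⟩
    rw [← dist_eq_norm]
    have : wc o c = b := hc
    rw [this]
    exact hdist
  choose cc hcc using happrox
  -- choose a net point for each `u`
  have hnet : ∀ u, ∃ r ∈ t, v u ∈ ball r η := by
    intro u
    have hu : v u ∈ closedBall (0 : R) (lam * Rad) := by
      rw [mem_closedBall, dist_zero_right]
      exact hvnorm u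
    have := htcov hu
    simp only [Set.mem_iUnion, exists_prop] at this
    exact this
  choose rr hrrt hrr using hnet
  -- the norm bound
  set w : N → StrongDual ℝ (Lip0 o) := fun u => wc o (cc (rr u)) with hw
  have hvw : ∀ u, ‖j (T (dF (ι u))) - w u‖ < 2 * η := by
    intro u
    have h1 : ‖v u - rr u‖ < η := by
      have := hrr u
      rwa [mem_ball, dist_eq_norm] at this
    have h1' : ‖j (T (dF (ι u))) - j ((rr u : R) : X)‖ < η := by
      rw [← map_sub, j.norm_map]
      exact h1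
    have h2 := hcc (rr u)
    calc ‖j (T (dF (ι u))) - w u‖
        = ‖(j (T (dF (ι u))) - j ((rr u : R) : X)) + (j ((rr u : R) : X) - w u)‖ := by
            congr 1; abel
      _ ≤ _ := norm_add_le _ _
      _ < η + η := add_lt_add h1' h2
      _ = 2 * η := by ring
  -- the operator is Lipschitz on evaluations
  have hTd : ∀ x y : N, ‖j (T (dF (ι x))) - j (T (dF (ι y)))‖ ≤ lam * dist x y := by
    intro x y
    rw [← map_sub, j.norm_map, ← map_sub]
    refine (T.le_opNorm _).trans ?_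
    have h2 : ‖dF (ι x) - dF (ι y)‖ ≤ dist x y := (hdFs _ _).trans (hι x y)
    exact mul_le_mul hT h2 (norm_nonneg _) hlam
  refine ⟨(htfin.toFinset.biUnion (fun r => (cc r).support)).image ρ,
    fun u => Phic o ρ (cc (rr u)), ?_, ?_, ?_⟩
  · -- locality
    intro u f g hfg hbase
    rw [Phic_apply, Phic_apply]
    apply Finset.sum_congr rfl
    intro x hx
    rw [hbase, hfg (ρ x) _]
    rw [Finset.mem_image]
    refine ⟨x, ?_, rfl⟩
    rw [Finset.mem_biUnion]
    exact ⟨rr u, htfin.mem_toFinset.mpr (hrrt u), hx⟩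
  · -- the edge inequality
    intro u u' f K hK hf
    set fh := ofLip o (f ∘ ρ) K hK (isLip_comp hρ hK hf) with hfh
    have e1 : Phic o ρ (cc (rr u')) f - Phic o ρ (cc (rr u)) f = (w u' - w u) fh := by
      rw [← wc_apply_ofLip o hρ _ hK hf, ← wc_apply_ofLip o hρ _ hK hf]
      rfl
    show Phic o ρ (cc (rr u')) f - Phic o ρ (cc (rr u)) f ≤ _
    rw [e1]
    have hnorm : ‖w u' - w u‖ ≤ lam * dist u u' + 4 * η := by
      have h1 := hvw u
      have h2 := hvw u'
      have h3 := hTd u u'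
      calc ‖w u' - w u‖ = ‖(j (T (dF (ι u))) - w u) - (j (T (dF (ι u'))) - w u')
            - (j (T (dF (ι u))) - j (T (dF (ι u'))))‖ := by
              congr 1; abel
        _ ≤ _ := (norm_sub_le _ _).trans (add_le_add_left (norm_sub_le _ _) _)
        _ ≤ lam * dist u u' + 4 * η := by linarith
    have h5 := (w u' - w u).le_opNorm fh
    have h6 : ‖fh‖ ≤ K := norm_ofLip_le _ _ _ _ _
    have h7 := le_abs_self ((w u' - w u) fh)
    rw [Real.norm_eq_abs] at h5
    calc (w u' - w u) fh ≤ |(w u' - w u) fh| := h7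
      _ ≤ ‖w u' - w u‖ * ‖fh‖ := h5
      _ ≤ (lam * dist u u' + 4 * η) * K :=
        mul_le_mul hnorm h6 (norm_nonneg _) (by positivity)
  · -- the inequality at a point of `A`
    intro u a f K ha hK hf
    set fh := ofLip o (f ∘ ρ) K hK (isLip_comp hρ hK hf) with hfh
    have e1 : Phic o ρ (cc (rr u)) f = w u fh := (wc_apply_ofLip o hρ _ hK hf).symm
    show f a - f (ρ o) - (lam * dist u a + 3 * η) * K ≤ Phic o ρ (cc (rr u)) f
    rw [e1]
    have e2 : delta o (ι a) fh = f a - f (ρ o) := by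
      rw [delta_apply, hfh, toFun_ofLip]
      simp [hρι]
    have hnorm : ‖w u - delta o (ι a)‖ ≤ lam * dist u a + 3 * η := by
      have h1 := hvw u
      have h3 := hTd u a
      have h4 : ‖j (T (dF (ι a))) - delta o (ι a)‖ < η := by
        rw [← hdF, ← map_sub, j.norm_map]
        exact hA a ha
      calc ‖w u - delta o (ι a)‖ = ‖(j (T (dF (ι u))) - j (T (dF (ι a))))
            - (j (T (dF (ι u))) - w u) + (j (T (dF (ι a))) - delta o (ι a))‖ := by
              congr 1; abel
        _ ≤ _ := (norm_add_le _ _).trans (add_le_add_left (norm_sub_le _ _) _)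
        _ ≤ lam * dist u a + 3 * η := by linarith
    have h5 := (w u - delta o (ι a)).le_opNorm fh
    have h6 : ‖fh‖ ≤ K := norm_ofLip_le _ _ _ _ _
    rw [Real.norm_eq_abs] at h5
    have h7 : |(w u - delta o (ι a)) fh| ≤ (lam * dist u a + 3 * η) * K :=
      h5.trans (mul_le_mul hnorm h6 (norm_nonneg _) (by positivity))
    have h8 := neg_abs_le ((w u - delta o (ι a)) fh)
    have h9 : (w u - delta o (ι a)) fh = w u fh - delta o (ι a) fh := rfl
    rw [h9, e2] at h7 h8
    linarith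

end Vale.Agent.Lib.P090
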