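import Vale.Agent.Lib.P090.Piece
import Vale.Agent.Lib.P090.Banach

/-!
# A uniformly discrete metric space whose free space fails the bounded approximation property
-/

set_option linter.unusedSectionVars false
set_option linter.unusedVariables false

namespace Vale.Agent.Lib.P090

open Finset

namespace Base

variable (B : Base)

/-- The product graph of a sheet and the piece. -/
def prodGraph (n : ℕ) : SimpleGraph ((B.Sh n).V × B.N) where
  Adj a b := (B.Sh n).G.Adj a.1 b.1 ∧ B.Gr.Adj a.2 b.2 ∧ (B.Sh n).c a.1 = B.col a.2 ∧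
    (B.Sh n).c b.1 = B.col b.2
  symm := ⟨by
    rintro a b ⟨h1, h2, h3, h4⟩
    exact ⟨h1.symm, h2.symm, h4, h3⟩⟩
  loopless := ⟨by
    rintro a ⟨h1, -⟩
    exact h1.ne rfl⟩

/-- The product of the sheet `n` and the lower levels has no long reduced walks. -/
theorem no_long_walks (n L : ℕ) (hL1 : 1 ≤ L)
    (hL : ∀ l : List (B.Sh n).V, l.IsChain (B.Sh n).G.Adj → NoBack l → l.length = L + 1 →
      l.map (B.Sh n).c ∉ (B.stN n).Wd L)
    (l : List ((B.Sh n).V × B.N)) (hc : l.IsChain (B.prodGraph n).Adj) (hn : NoBack l)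
    (hcol : ∀ x ∈ l, (B.Sh n).c x.1 = B.col x.2) (hlev : ∀ x ∈ l, B.lev x.2 ≤ n) :
    l.length ≠ L + 1 := by
  intro hlen
  have hc1 : (l.map Prod.fst).IsChain (B.Sh n).G.Adj :=
    List.isChain_map_of_isChain _ (fun a b h => h.1) hc
  have hc2 : (l.map Prod.snd).IsChain B.Gr.Adj :=
    List.isChain_map_of_isChain _ (fun a b h => h.2.1) hc
  have hinj : ∀ p q₁ q₂, (B.prodGraph n).Adj p q₁ → (B.prodGraph n).Adj p q₂ →
      q₁.1 = q₂.1 → q₁ = q₂ := by
    intro p q₁ q₂ h₁ h₂ e
    have e2 : B.col q₁.2 = B.col q₂.2 := by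
      rw [← h₁.2.2.2, ← h₂.2.2.2, e]
    exact Prod.ext e (B.col_loc _ _ _ h₁.2.1 h₂.2.1 e2)
  have hn1 : NoBack (l.map Prod.fst) :=
    NoBack.map_of_locInj Prod.fst hinj (fun _ _ h => h.symm) hc hn
  have hword := hL _ hc1 hn1 (by simpa using hlen)
  apply hword
  -- the walk in the piece
  match hl2 : l.map Prod.snd, hc2 with
  | [], _ =>
    have := congrArg List.length hl2
    simp only [List.length_map, List.length_nil] at this
    omega
  | [_], _ =>
    have := congrArg List.length hl2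
    simp only [List.length_map, List.length_singleton] at this
    omega
  | a :: b :: t, hc2 =>
    obtain ⟨k, l3, e3, hl3⟩ := B.chain_in_sheet hc2 (by simp)
    have hwords : (l.map Prod.fst).map (B.Sh n).c = l3.map (B.Sh k).c := by
      have h1 : (l.map Prod.fst).map (B.Sh n).c = (l.map Prod.snd).map B.col := by
        rw [List.map_map, List.map_map]
        apply List.map_congr_left
        intro x hx
        exact hcol x hx
      rw [h1, hl2, e3, List.map_map]
      rfl
    rw [hwords]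
    have hlen3 : l3.length = L + 1 := by
      have := congrArg List.length e3
      have h4 := congrArg List.length hl2
      simp only [List.length_map] at this h4
      omega
    have hkn : k < n := by
      cases l3 with
      | nil => simp at hlen3
      | cons y l3' =>
        have ha : a = N.pt k y := by
          simp only [List.map_cons] at e3
          exact (List.cons.inj e3).1
        have hmem : a ∈ l.map Prod.snd := by rw [hl2]; simp
        obtain ⟨x, hx, e4⟩ := List.mem_map.mp hmem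
        have := hlev x hx
        rw [e4, ha] at this
        have h5 : k + 1 ≤ n := this
        omega
    exact B.word_mem hkn hl3 hlen3

/-- There are no functionals with the properties extracted from a good operator. -/
theorem no_functionals (Lam : ℕ) (hLam : 0 < Lam) (hr : B.r = 4 * Lam) (hd : B.d₀ = 100 * Lam)
    (lam η : ℝ) (hlam : 0 ≤ lam) (hη : 0 < η) (hle : lam + 4 * η ≤ Lam)
    (S : Finset B.N) (o' : B.N) (Φ : B.N → (B.N → ℝ) →ₗ[ℝ] ℝ)
    (Φ0 : ∀ u f g, (∀ z ∈ S, f z = g z) → f o' = g o' → Φ u f = Φ u g)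
    (Φ1 : ∀ u u' (f : B.N → ℝ) (K : ℝ), 0 ≤ K → IsLip K f →
      Φ u' f - Φ u f ≤ (lam * dist u u' + 4 * η) * K)
    (Φ2 : ∀ u a (f : B.N → ℝ) (K : ℝ), a ∈ Set.range (N.sec : B.F → B.N) → 0 ≤ K → IsLip K f →
      f a - f o' - (lam * dist u a + 3 * η) * K ≤ Φ u f) : False := by
  classical
  -- a level above all the relevant points
  set n : ℕ := max (S.sup B.lev) (B.lev o') with hn
  have hSn : ∀ z ∈ S, B.lev z ≤ n := fun z hz =>
    (Finset.le_sup (f := B.lev) hz).trans (le_max_left _ _)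
  have hon : B.lev o' ≤ n := le_max_right _ _
  set Z : Set B.N := {p | B.lev p ≤ n} with hZ
  have hZfin : Z.Finite := B.finite_lev n
  obtain ⟨L, hL1, hL⟩ := (B.Sh_good n).avoid
  -- the orientation
  set SS : Finset ((B.Sh n).V × B.N) :=
    (univ ×ˢ hZfin.toFinset).filter (fun x => (B.Sh n).c x.1 = B.col x.2) with hSS
  have hmemSS : ∀ x, x ∈ SS ↔ B.lev x.2 ≤ n ∧ (B.Sh n).c x.1 = B.col x.2 := by
    intro x
    simp [hSS, hZ]
  obtain ⟨Pa', h1, h2, h3⟩ := exists_orientation (B.prodGraph n) SS L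
    (fun l hc hnb hmem => B.no_long_walks n L hL1 hL l hc hnb
      (fun x hx => ((hmemSS x).mp (hmem x hx)).2) (fun x hx => ((hmemSS x).mp (hmem x hx)).1))
  set Pa : (B.Sh n).V → B.N → (B.Sh n).V → B.N → Prop := fun u y u' y' => Pa' (u, y) (u', y')
    with hPa
  -- the core data
  have hcore : CoreData B.Q B.Gr B.col (B.Sh n).G (B.Sh n).c Z N.sec Pa B.r (8 * B.d₀) B.T :=
    { hQ := B.girth
      homN := B.col_hom
      locN := B.col_loc
      homX := (B.Sh_good n).hom
      locX := (B.Sh_good n).loc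
      dist_walk := B.dist_walk
      dist_color := B.dist_color
      closedZ := fun p q hp hpq => by
        show B.lev q ≤ n
        rw [B.lev_adj hpq]
        exact hp
      s_color := fun a => rfl
      s_mem := fun a => Nat.zero_le _
      s_iso := fun a q h => by cases h
      pa_adj := fun u y u' y' h => (h1 _ _ h).2.1
      pa_fun := fun u y u₁ y₁ u₂ y₂ h₁ h₂ => congrArg Prod.fst (h2 _ _ _ h₁ h₂)
      pa_tot := fun u u' y y' huu hyy hy c1 c2 => by
        have hy' : y' ∈ Z := by
          show B.lev y' ≤ n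
          rw [B.lev_adj hyy]
          exact hy
        exact h3 (u, y) ((hmemSS _).mpr ⟨hy, c1⟩) (u', y') ((hmemSS _).mpr ⟨hy', c2⟩)
          ⟨huu, hyy, c1, c2⟩
      deg_le := (B.Sh_good n).deg
      rpos := B.rpos
      Dpos := by have := B.pos; omega
      T_eq := rfl }
  have hLamR : (1 : ℝ) ≤ Lam := by exact_mod_cast hLam
  have hrR : (B.r : ℝ) = 4 * Lam := by rw [hr]; push_cast; ring
  have hmain := hcore.main Lam hr o' hon (fun u => Φ (N.pt n u))
    (fun u f g hfg => Φ0 _ f g (fun z hz => hfg z (hSn z hz)) (hfg o' hon))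
    (fun u u' huu f K hK hf => by
      have h := Φ1 (N.pt n u) (N.pt n u') f K hK hf
      have hd1 : dist (N.pt n u : B.N) (N.pt n u') ≤ 1 := B.dist_adj_le (NAdj.mk n u u' huu)
      refine h.trans (mul_le_mul_of_nonneg_right ?_ hK)
      nlinarith)
    (fun u f K hK hf => by
      have h := Φ2 (N.pt n u) (N.sec ((B.Sh n).c u)) f K ⟨_, rfl⟩ hK hf
      have hd1 : dist (N.pt n u : B.N) (N.sec ((B.Sh n).c u)) ≤ 2 * B.r := B.dist_section_le _
      refine le_trans ?_ h
      have h4 : (lam * dist (N.pt n u : B.N) (N.sec ((B.Sh n).c u)) + 3 * η) * K ≤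
          2 * Lam * B.r * K := by
        apply mul_le_mul_of_nonneg_right _ hK
        have h5 : lam * dist (N.pt n u : B.N) (N.sec ((B.Sh n).c u)) ≤ lam * (2 * B.r) :=
          mul_le_mul_of_nonneg_left hd1 hlam
        rw [hrR] at h5 ⊢
        nlinarith
      linarith)
  -- contradiction with the number of edges
  have hmany := (B.Sh_good n).many
  obtain ⟨v⟩ := (B.Sh_good n).ne
  have hcard : (1 : ℝ) ≤ Fintype.card (B.Sh n).V := by
    have : 0 < Fintype.card (B.Sh n).V := Fintype.card_pos_iff.mpr ⟨v⟩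
    exact_mod_cast this
  have hdR : (B.d₀ : ℝ) = 100 * Lam := by rw [hd]; push_cast; ring
  rw [hdR] at hmany
  nlinarith

end Base

/-- Every positive integer has a base with the required parameters. -/
theorem exists_base (Lam : ℕ) (hLam : 0 < Lam) : ∃ B : Base, B.r = 4 * Lam ∧ B.d₀ = 100 * Lam := by
  classical
  set d₀ := 100 * Lam with hd₀
  set r := 4 * Lam with hr
  set q := 16 * d₀ ^ 2 with hq
  obtain ⟨F, hF, Q, p, hcov, hgirth⟩ :=
    exists_cover (⊤ : SimpleGraph (Fin (q + 1))) (2 * (8 * d₀ * r + r + 2) + 3)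
  let _ : Fintype F := Fintype.ofFinite F
  have hne : Nonempty F := by
    obtain ⟨v, _⟩ := hcov.onto 0
    exact ⟨v⟩
  refine ⟨⟨F, inferInstance, hne, Q, d₀, by omega, ?_, r, by omega, hgirth⟩, rfl, rfl⟩
  intro a
  rw [card_nbrs_of_cover hcov]
  have : nbrs (⊤ : SimpleGraph (Fin (q + 1))) (p a) = Finset.univ.erase (p a) := by
    ext v
    simp [mem_nbrs, ne_comm]
  rw [this, Finset.card_erase_of_mem (Finset.mem_univ _), Finset.card_univ, Fintype.card_fin]
  simp [hq]

/-- The base used for the `i`-th piece. -/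
noncomputable def baseOf (i : ℕ) : Base := Classical.choose (exists_base (i + 1) (Nat.succ_pos i))

theorem baseOf_r (i : ℕ) : (baseOf i).r = 4 * (i + 1) :=
  (Classical.choose_spec (exists_base (i + 1) (Nat.succ_pos i))).1

theorem baseOf_d (i : ℕ) : (baseOf i).d₀ = 100 * (i + 1) :=
  (Classical.choose_spec (exists_base (i + 1) (Nat.succ_pos i))).2

/-! ### The wedge -/

section Wedge

variable {E : ℕ → Type} [∀ i, MetricSpace (E i)]

attribute [local instance] Metric.Sigma.metricSpace

theorem sigma_retract (i : ℕ) (hne : Nonempty (E i)) :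
    ∃ ρ : (Σ j, E j) → E i, (∀ x y, dist (ρ x) (ρ y) ≤ dist x y) ∧ ∀ x, ρ ⟨i, x⟩ = x := by
  classical
  let ρ : (Σ j, E j) → E i := fun x =>
    if h : x.1 = i then h ▸ x.2 else hne.some
  have hρ1 : ∀ x : E i, ρ ⟨i, x⟩ = x := fun x => by simp [ρ]
  have hρ2 : ∀ (j : ℕ) (y : E j), j ≠ i → ρ ⟨j, y⟩ = hne.some := fun j y h => by simp [ρ, h]
  refine ⟨ρ, ?_, hρ1⟩
  rintro ⟨j, a⟩ ⟨k, c⟩
  by_cases hj : j = i
  · subst hj
    by_cases hk : k = j
    · subst hk
      rw [hρ1, hρ1, Metric.Sigma.dist_same]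
    · rw [hρ1, hρ2 k c hk, Metric.Sigma.dist_ne (Ne.symm hk)]
      have : dist a hne.some ≤ dist a (Nonempty.some ⟨a⟩) := le_rfl
      have h2 : 0 ≤ dist (Nonempty.some ⟨c⟩) c := dist_nonneg
      linarith
  · by_cases hk : k = i
    · subst hk
      rw [hρ1, hρ2 j a hj, Metric.Sigma.dist_ne hj]
      have : dist hne.some c ≤ dist (Nonempty.some ⟨c⟩) c := le_rfl
      have h2 : 0 ≤ dist a (Nonempty.some ⟨a⟩) := dist_nonneg
      linarith
    · rw [hρ2 j a hj, hρ2 k c hk, dist_self]
      exact dist_nonneg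

end Wedge

attribute [local instance] Metric.Sigma.metricSpace

/-- The metric space. -/
abbrev TheM : Type := Σ i, (baseOf i).N

theorem nonempty_piece (i : ℕ) : Nonempty (baseOf i).N := by
  obtain ⟨a⟩ := (baseOf i).ne
  exact ⟨.sec a⟩

theorem theM_discrete (x y : TheM) (h : x ≠ y) : 1 ≤ dist x y := by
  obtain ⟨i, a⟩ := x
  obtain ⟨j, b⟩ := y
  by_cases hij : i = j
  · subst hij
    rw [Metric.Sigma.dist_same]
    apply Base.one_le_dist
    intro e
    exact h (by rw [e])
  · exact Metric.Sigma.one_le_dist_of_ne (E := fun i => (baseOf i).N) hij a b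

theorem not_hasBAP (o : TheM) : ¬ HasBAP (Free o) := by
  rintro ⟨lam, hlam⟩
  classical
  -- the piece to look at
  set i : ℕ := ⌈|lam|⌉₊ with hi
  have hiR : lam + 1 / 2 ≤ ((i + 1 : ℕ) : ℝ) := by
    have h1 : |lam| ≤ (i : ℝ) := Nat.le_ceil _
    have h2 := le_abs_self lam
    push_cast
    linarith
  obtain ⟨ρ, hρ, hρι⟩ := sigma_retract (E := fun i => (baseOf i).N) i (nonempty_piece i)
  set ι : (baseOf i).N → TheM := fun x => ⟨i, x⟩ with hι
  have hιd : ∀ x y, dist (ι x) (ι y) ≤ dist x y := fun x y => by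
    exact (Metric.Sigma.dist_same (E := fun i => (baseOf i).N) i x y).le
  obtain ⟨b⟩ := nonempty_piece i
  set Rad : ℝ := (2 * (baseOf i).r + (baseOf i).T) + dist (ι b) o with hRad
  have hRadle : ∀ x, dist (ι x) o ≤ Rad := by
    intro x
    refine (dist_triangle _ (ι b) _).trans ?_
    have := (baseOf i).dist_le x b
    have h2 := hιd x b
    rw [hRad]
    linarith
  -- the compact set
  set dF : TheM → Free o := fun x => ⟨delta o x, delta_mem_free o x⟩ with hdF
  set C : Set (Free o) := Set.range (fun a : (baseOf i).F => dF (ι (.sec a))) with hC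
  have hCc : IsCompact C := (Set.finite_range _).isCompact
  obtain ⟨T, hfin, hT, hTC⟩ := hlam C hCc (1 / 8) (by norm_num)
  have hlam0 : 0 ≤ lam := (norm_nonneg _).trans hT
  obtain ⟨S, Φ, h0, h1, h2⟩ := exists_functionals o (Free o).subtypeₗᵢ (fun x => x.2) dF
    (fun x => rfl) ρ hρ ι hρι hιd Rad hRadle T hfin lam hT (1 / 8) (by norm_num)
    (Set.range (Base.N.sec : (baseOf i).F → (baseOf i).N))
    (by
      rintro a ⟨a', rfl⟩
      exact hTC _ ⟨a', rfl⟩)
  exact (baseOf i).no_functionals (i + 1) (Nat.succ_pos i) (baseOf_r i) (baseOf_d i) lam (1 / 8)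
    hlam0 (by norm_num) (by linarith) S (ρ o) Φ h0 h1 h2

theorem countable_piece (B : Base) : Countable B.N := by
  have hs : Function.Surjective (fun x : B.F ⊕ Σ n, (B.Sh n).V =>
      match x with
      | Sum.inl a => (Base.N.sec a : B.N)
      | Sum.inr ⟨n, u⟩ => Base.N.pt n u) := by
    rintro (a | ⟨n, u⟩)
    · exact ⟨Sum.inl a, rfl⟩
    · exact ⟨Sum.inr ⟨n, u⟩, rfl⟩
  exact hs.countable

/-- **Main theorem.** -/
theorem main_thm : ∃ (M : Type) (_ : MetricSpace M), Nonempty M ∧ Countable M ∧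
    (∃ θ : ℝ, 0 < θ ∧ ∀ x y : M, x ≠ y → θ ≤ dist x y) ∧ ∀ o : M, ¬ HasBAP (Free o) := by
  refine ⟨TheM, inferInstance, ?_, ?_, ⟨1, one_pos, theM_discrete⟩, not_hasBAP⟩
  · obtain ⟨b⟩ := nonempty_piece 0
    exact ⟨⟨0, b⟩⟩
  · have : ∀ i, Countable (baseOf i).N := fun i => countable_piece _
    infer_instance

end Vale.Agent.Lib.P090
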