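import Mathlib

/-!
# An averaging lemma over random subsets of a finite set
-/

set_option linter.unusedSectionVars false
set_option linter.unusedVariables false

namespace Vale.Agent.Lib.P090

open Finset

variable {E ι β : Type*} [Fintype E] [DecidableEq E]

theorem card_fix (m : ℕ) [NeZero m] (S : Finset E) :
    ((univ.filter (fun κ : E → Fin m => ∀ e ∈ S, κ e = 0)).card : ℝ) * (m : ℝ) ^ S.card =
      (m : ℝ) ^ (Fintype.card E) := by
  have h1 : univ.filter (fun κ : E → Fin m => ∀ e ∈ S, κ e = 0) =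
      Fintype.piFinset (fun e => if e ∈ S then ({0} : Finset (Fin m)) else univ) := by
    ext κ
    simp only [mem_filter, mem_univ, true_and, Fintype.mem_piFinset]
    constructor
    · intro h e
      by_cases he : e ∈ S
      · rw [if_pos he]; simp [h e he]
      · rw [if_neg he]; simp
    · intro h e he
      have := h e
      rw [if_pos he] at this
      simpa using this
  rw [h1, Fintype.card_piFinset]
  have h2 : (m : ℝ) ^ S.card = ∏ e : E, (if e ∈ S then (m : ℝ) else 1) := by
    rw [Finset.prod_ite_mem, Finset.univ_inter, Finset.prod_const]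
  rw [h2]
  push_cast
  rw [← Finset.prod_mul_distrib]
  have h3 : (m : ℝ) ^ (Fintype.card E) = ∏ _e : E, (m : ℝ) := by
    rw [Finset.prod_const, Finset.card_univ]
  rw [h3]
  apply Finset.prod_congr rfl
  intro e _
  by_cases he : e ∈ S
  · simp [he]
  · simp [he]

theorem card_fix' (m : ℕ) [NeZero m] (S : Finset E) :
    ((univ.filter (fun κ : E → Fin m => ∀ e ∈ S, κ e = 0)).card : ℝ) =
      (m : ℝ) ^ (Fintype.card E) / (m : ℝ) ^ S.card := by
  have hm : (0 : ℝ) < m := by exact_mod_cast Nat.pos_of_ne_zero (NeZero.ne m)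
  rw [eq_div_iff (by positivity)]
  exact card_fix m S

/-- Sum over all `κ` of a filter count. -/
theorem sum_card_filter {α : Type*} (m : ℕ) (A : Finset α)
    (p : α → (E → Fin m) → Prop) [∀ a κ, Decidable (p a κ)] :
    (∑ κ : E → Fin m, ((A.filter (fun a => p a κ)).card : ℝ)) =
      ∑ a ∈ A, ((univ.filter (fun κ : E → Fin m => p a κ)).card : ℝ) := by
  simp_rw [Finset.natCast_card_filter]
  rw [Finset.sum_comm]

theorem exists_kappa [Fintype ι] (m : ℕ) [NeZero m] (L q : ℕ) (D : ℝ) (hD : 0 < D)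
    (EE : Finset E) (I : ι → Finset E) (hI : ∀ v, (I v).card = q)
    (Bd : Finset β) (ee : β → Finset E) (hee : ∀ b ∈ Bd, (ee b).card = L) :
    ∃ κ : E → Fin m,
      (EE.card : ℝ) / m - Bd.card / (m : ℝ) ^ L -
          (1 / D) * (Fintype.card ι * (q / m + ((q : ℝ) / m) ^ 2)) ≤
        ((EE.filter (fun e => κ e = 0)).card : ℝ) -
          ((Bd.filter (fun b => ∀ e ∈ ee b, κ e = 0)).card : ℝ) -
          (1 / D) * ∑ v, (((I v).filter (fun e => κ e = 0)).card : ℝ) ^ 2 := by
  have hm : (0 : ℝ) < m := by exact_mod_cast Nat.pos_of_ne_zero (NeZero.ne m)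
  set T : ℝ := (m : ℝ) ^ (Fintype.card E) with hT
  have hTpos : 0 < T := by positivity
  have hcardΩ : ((univ : Finset (E → Fin m)).card : ℝ) = T := by
    rw [Finset.card_univ, Fintype.card_fun, Fintype.card_fin, hT]
    push_cast
    rfl
  -- first sum
  have s1 : (∑ κ : E → Fin m, ((EE.filter (fun e => κ e = 0)).card : ℝ)) = (EE.card : ℝ) * (T / m) := by
    rw [sum_card_filter m EE (fun e κ => κ e = 0)]
    rw [Finset.sum_congr rfl (g := fun _ => T / m)]
    · simp
    · intro e _
      have := card_fix' (E := E) m {e}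
      simp only [mem_singleton, forall_eq, card_singleton, pow_one] at this
      exact this
  -- second sum
  have s2 : (∑ κ : E → Fin m, ((Bd.filter (fun b => ∀ e ∈ ee b, κ e = 0)).card : ℝ)) =
      (Bd.card : ℝ) * (T / (m : ℝ) ^ L) := by
    rw [sum_card_filter m Bd (fun b κ => ∀ e ∈ ee b, κ e = 0)]
    rw [Finset.sum_congr rfl (g := fun _ => T / (m : ℝ) ^ L)]
    · simp
    · intro b hb
      have := card_fix' (E := E) m (ee b)
      rw [hee b hb] at this
      exact this
  -- third sum
  have s3 : ∀ v : ι, (∑ κ : E → Fin m, (((I v).filter (fun e => κ e = 0)).card : ℝ) ^ 2) ≤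
      T * (q / m + ((q : ℝ) / m) ^ 2) := by
    intro v
    have e1 : ∀ κ : E → Fin m, (((I v).filter (fun e => κ e = 0)).card : ℝ) ^ 2 =
        ∑ e ∈ I v, ∑ e' ∈ I v, (if κ e = 0 ∧ κ e' = 0 then (1 : ℝ) else 0) := by
      intro κ
      rw [Finset.natCast_card_filter, sq, Finset.sum_mul_sum]
      apply Finset.sum_congr rfl
      intro e _
      apply Finset.sum_congr rfl
      intro e' _
      by_cases h1 : κ e = 0 <;> by_cases h2 : κ e' = 0 <;> simp [h1, h2]
    simp_rw [e1]
    rw [Finset.sum_comm]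
    have e2 : ∀ e e' : E, (∑ κ : E → Fin m, (if κ e = 0 ∧ κ e' = 0 then (1 : ℝ) else 0)) ≤
        (if e' = e then T / m else 0) + T / (m : ℝ) ^ 2 := by
      intro e e'
      have e3 : (∑ κ : E → Fin m, (if κ e = 0 ∧ κ e' = 0 then (1 : ℝ) else 0)) =
          ((univ.filter (fun κ : E → Fin m => ∀ x ∈ ({e, e'} : Finset E), κ x = 0)).card : ℝ) := by
        rw [Finset.natCast_card_filter]
        apply Finset.sum_congr rfl
        intro κ _
        simp
      rw [e3, card_fix']
      by_cases he : e' = e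
      · subst he
        simp only [if_true, insert_eq_of_mem, mem_singleton, card_singleton, pow_one]
        have : 0 ≤ T / (m : ℝ) ^ 2 := by positivity
        linarith
      · rw [if_neg he, zero_add, Finset.card_pair (Ne.symm he)]
    have e4 : ∀ e ∈ I v, (∑ κ : E → Fin m, ∑ e' ∈ I v, (if κ e = 0 ∧ κ e' = 0 then (1 : ℝ) else 0)) ≤
        T / m + (q : ℝ) * (T / (m : ℝ) ^ 2) := by
      intro e he
      rw [Finset.sum_comm]
      refine (Finset.sum_le_sum (fun e' _ => e2 e e')).trans ?_
      rw [Finset.sum_add_distrib, Finset.sum_ite_eq' (I v) e, if_pos he, Finset.sum_const,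
        hI v, nsmul_eq_mul]
    refine (Finset.sum_le_sum e4).trans ?_
    rw [Finset.sum_const, hI v, nsmul_eq_mul]
    apply le_of_eq
    field_simp
  -- combine
  have hsum : ∑ _κ : E → Fin m, ((EE.card : ℝ) / m - Bd.card / (m : ℝ) ^ L -
          (1 / D) * (Fintype.card ι * (q / m + ((q : ℝ) / m) ^ 2))) ≤
      ∑ κ : E → Fin m, (((EE.filter (fun e => κ e = 0)).card : ℝ) -
          ((Bd.filter (fun b => ∀ e ∈ ee b, κ e = 0)).card : ℝ) -
          (1 / D) * ∑ v, (((I v).filter (fun e => κ e = 0)).card : ℝ) ^ 2) := by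
    rw [Finset.sum_const, nsmul_eq_mul, hcardΩ]
    rw [Finset.sum_sub_distrib, Finset.sum_sub_distrib, s1, s2, ← Finset.mul_sum]
    have s3' : (∑ κ : E → Fin m, ∑ v, (((I v).filter (fun e => κ e = 0)).card : ℝ) ^ 2) ≤
        (Fintype.card ι : ℝ) * (T * (q / m + ((q : ℝ) / m) ^ 2)) := by
      rw [Finset.sum_comm]
      refine (Finset.sum_le_sum (fun v _ => s3 v)).trans ?_
      rw [Finset.sum_const, nsmul_eq_mul, Finset.card_univ]
    have hD' : 0 ≤ 1 / D := by positivity
    have := mul_le_mul_of_nonneg_left s3' hD'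
    have e5 : T * ((EE.card : ℝ) / m - Bd.card / (m : ℝ) ^ L -
          (1 / D) * (Fintype.card ι * (q / m + ((q : ℝ) / m) ^ 2))) =
        (EE.card : ℝ) * (T / m) - (Bd.card : ℝ) * (T / (m : ℝ) ^ L) -
          1 / D * ((Fintype.card ι : ℝ) * (T * (q / m + ((q : ℝ) / m) ^ 2))) := by
      ring
    rw [e5]
    linarith
  obtain ⟨κ, -, hκ⟩ := Finset.exists_le_of_sum_le (Finset.univ_nonempty) hsum
  exact ⟨κ, hκ⟩

end Vale.Agent.Lib.P090
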