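import Mathlib

/-! Lipschitz-free spaces over pointed metric spaces: definitions and linearization. -/

open scoped NNReal

namespace Vale.Agent.Lib.P090.Bdd

section lip

variable {M : Type*} [MetricSpace M]

/-- The Lipschitz constant of a function, as an infimum of admissible constants. -/
noncomputable def lipConst (f : M → ℝ) : ℝ :=
  sInf {K : ℝ | 0 ≤ K ∧ ∀ x y, |f x - f y| ≤ K * dist x y}

lemma lipConst_nonneg (f : M → ℝ) : 0 ≤ lipConst f :=
  Real.sInf_nonneg fun _ h => h.1

lemma lipConst_le {f : M → ℝ} {K : ℝ} (h0 : 0 ≤ K) (h : ∀ x y, |f x - f y| ≤ K * dist x y) :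
    lipConst f ≤ K :=
  csInf_le ⟨0, fun _ h => h.1⟩ ⟨h0, h⟩

lemma abs_sub_le_lipConst {f : M → ℝ} (hf : ∃ K : ℝ≥0, LipschitzWith K f) (x y : M) :
    |f x - f y| ≤ lipConst f * dist x y := by
  obtain ⟨K, hK⟩ := hf
  by_cases hxy : x = y
  · simp [hxy]
  have hd : 0 < dist x y := dist_pos.mpr hxy
  have hne : {K : ℝ | 0 ≤ K ∧ ∀ x y, |f x - f y| ≤ K * dist x y}.Nonempty :=
    ⟨K, K.2, fun a b => by
      have := hK.dist_le_mul a b
      simpa [Real.dist_eq] using this⟩
  have : |f x - f y| / dist x y ≤ lipConst f := by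
    apply le_csInf hne
    rintro b ⟨_, hb⟩
    rw [div_le_iff₀ hd]
    exact hb x y
  rwa [div_le_iff₀ hd] at this

end lip

/-- The vector space of real Lipschitz functions on `M` vanishing at the base point `o`. -/
def lipZeroSubmodule (M : Type*) [MetricSpace M] (o : M) : Submodule ℝ (M → ℝ) where
  carrier := {f | (∃ K : ℝ≥0, LipschitzWith K f) ∧ f o = 0}
  add_mem' := by
    rintro f g ⟨⟨K, hK⟩, hf⟩ ⟨⟨L, hL⟩, hg⟩
    exact ⟨⟨K + L, hK.add hL⟩, by simp [hf, hg]⟩
  zero_mem' := ⟨⟨0, LipschitzWith.const 0⟩, rfl⟩
  smul_mem' := by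
    rintro c f ⟨⟨K, hK⟩, hf⟩
    refine ⟨⟨‖c‖₊ * K, ?_⟩, by simp [hf]⟩
    exact (lipschitzWith_smul c).comp hK

/-- `Lip₀(M)`: real Lipschitz functions on `M` vanishing at the base point `o`. -/
def LipZero (M : Type*) [MetricSpace M] (o : M) : Type _ := lipZeroSubmodule M o

namespace LipZero

variable {M : Type*} [MetricSpace M] {o : M}

noncomputable instance : AddCommGroup (LipZero M o) :=
  Submodule.addCommGroup (lipZeroSubmodule M o)

noncomputable instance : Module ℝ (LipZero M o) :=
  Submodule.module (lipZeroSubmodule M o)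

/-- The underlying function. -/
def toFun (f : LipZero M o) : M → ℝ := Subtype.val (p := fun g => g ∈ lipZeroSubmodule M o) f

instance : CoeFun (LipZero M o) (fun _ => M → ℝ) := ⟨toFun⟩

/-- The norm of `Lip₀(M)` is the Lipschitz constant. -/
noncomputable instance : Norm (LipZero M o) := ⟨fun f => lipConst (f : M → ℝ)⟩

lemma norm_def (f : LipZero M o) : ‖f‖ = lipConst (f : M → ℝ) := rfl

lemma lip (f : LipZero M o) : ∃ K : ℝ≥0, LipschitzWith K (f : M → ℝ) :=
  (Subtype.property (p := fun g => g ∈ lipZeroSubmodule M o) f).1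

lemma map_base (f : LipZero M o) : (f : M → ℝ) o = 0 :=
  (Subtype.property (p := fun g => g ∈ lipZeroSubmodule M o) f).2

@[simp] lemma add_apply (f g : LipZero M o) (x : M) : (f + g) x = f x + g x := rfl

@[simp] lemma smul_apply (c : ℝ) (f : LipZero M o) (x : M) : (c • f) x = c * f x := rfl

@[simp] lemma zero_apply (x : M) : (0 : LipZero M o) x = 0 := rfl

lemma ext' {f g : LipZero M o} (h : ∀ x, f x = g x) : f = g :=
  Subtype.ext (p := fun g => g ∈ lipZeroSubmodule M o) (funext h)

/-- Build an element of `Lip₀(M)` from a function. -/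
def mk (f : M → ℝ) (h : ∃ K : ℝ≥0, LipschitzWith K f) (h0 : f o = 0) : LipZero M o :=
  Subtype.mk (p := fun g => g ∈ lipZeroSubmodule M o) f ⟨h, h0⟩

@[simp] lemma mk_apply (f : M → ℝ) (h : ∃ K : ℝ≥0, LipschitzWith K f) (h0 : f o = 0) (x : M) :
    mk f h h0 x = f x := rfl

lemma abs_sub_le (f : LipZero M o) (x y : M) : |f x - f y| ≤ ‖f‖ * dist x y :=
  abs_sub_le_lipConst f.lip x y

lemma abs_apply_le (f : LipZero M o) (x : M) : |f x| ≤ ‖f‖ * dist x o := by
  have := f.abs_sub_le x o
  rwa [f.map_base, sub_zero] at this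

lemma norm_le {f : LipZero M o} {K : ℝ} (h0 : 0 ≤ K) (h : ∀ x y, |f x - f y| ≤ K * dist x y) :
    ‖f‖ ≤ K := lipConst_le h0 h

/-- The Lipschitz constant is a norm. -/
lemma core : NormedSpace.Core ℝ (LipZero M o) where
  norm_nonneg f := lipConst_nonneg _
  norm_smul c f := by
    have key : ∀ (c : ℝ) (f : LipZero M o), ‖c • f‖ ≤ |c| * ‖f‖ := by
      intro c f
      apply norm_le (mul_nonneg (abs_nonneg _) (lipConst_nonneg _))
      intro x y
      have h := f.abs_sub_le x y
      simp only [smul_apply]
      rw [← mul_sub, abs_mul, mul_assoc]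
      exact mul_le_mul_of_nonneg_left h (abs_nonneg _)
    apply le_antisymm (by simpa using key c f)
    by_cases hc : c = 0
    · subst hc
      have : (0 : ℝ) • f = 0 := zero_smul _ _
      rw [this, norm_zero, zero_mul]
      exact lipConst_nonneg _
    have h2 := key c⁻¹ (c • f)
    rw [smul_smul, inv_mul_cancel₀ hc, one_smul, abs_inv] at h2
    have hc' : 0 < |c| := abs_pos.mpr hc
    rw [inv_mul_eq_div, le_div_iff₀ hc'] at h2
    simpa [Real.norm_eq_abs, mul_comm] using h2
  norm_triangle f g := by
    apply norm_le (add_nonneg (lipConst_nonneg _) (lipConst_nonneg _))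
    intro x y
    have h1 := f.abs_sub_le x y
    have h2 := g.abs_sub_le x y
    simp only [add_apply]
    have e : (‖f‖ + ‖g‖) * dist x y = ‖f‖ * dist x y + ‖g‖ * dist x y := by ring
    calc |f x + g x - (f y + g y)| = |f x - f y + (g x - g y)| := by
          congr 1; ring
      _ ≤ |f x - f y| + |g x - g y| := abs_add_le _ _
      _ ≤ ‖f‖ * dist x y + ‖g‖ * dist x y := add_le_add h1 h2
      _ = _ := e.symm
  norm_eq_zero_iff f := by
    constructor
    · intro h
      apply ext'
      intro x
      have := f.abs_apply_le x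
      rw [h, zero_mul] at this
      simpa using abs_nonpos_iff.mp this
    · rintro rfl
      apply le_antisymm _ (lipConst_nonneg _)
      apply norm_le le_rfl
      intro x y
      simp

noncomputable instance : NormedAddCommGroup (LipZero M o) where
  dist f g := ‖-f + g‖
  dist_self f := by
    have := ((core (M := M) (o := o)).norm_eq_zero_iff (-f + f)).mpr (neg_add_cancel f)
    exact this
  dist_comm f g := by
    have h := (core (M := M) (o := o)).norm_smul (-1) (-f + g)
    have e : (-1 : ℝ) • (-f + g) = -g + f := by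
      rw [neg_one_smul]; abel
    rw [e] at h
    simpa using h.symm
  dist_triangle f g h := by
    have := (core (M := M) (o := o)).norm_triangle (-f + g) (-g + h)
    have e : -f + g + (-g + h) = -f + h := by abel
    rwa [e] at this
  eq_of_dist_eq_zero {f g} h := by
    have := ((core (M := M) (o := o)).norm_eq_zero_iff (-f + g)).mp h
    have e : g = f := by
      have := neg_add_eq_zero.mp this
      exact this.symm
    exact e.symm
  dist_eq _ _ := rfl

noncomputable instance : NormedSpace ℝ (LipZero M o) :=
  { (inferInstance : Module ℝ (LipZero M o)) with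
    norm_smul_le := fun c f => le_of_eq ((core (M := M) (o := o)).norm_smul c f) }

end LipZero

section free

variable {M : Type*} [MetricSpace M] (o : M)

/-- Evaluation at `x`, an element of the dual of `Lip₀(M)`. -/
noncomputable def evalAt (x : M) : StrongDual ℝ (LipZero M o) :=
  LinearMap.mkContinuous
    { toFun := fun f => f x
      map_add' := fun _ _ => rfl
      map_smul' := fun _ _ => rfl }
    (dist x o)
    (fun f => by
      have := f.abs_apply_le x
      rw [mul_comm] at this
      exact this)

@[simp] lemma evalAt_apply (x : M) (f : LipZero M o) : evalAt o x f = f x := rfl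

/-- The closed span of the evaluations in the dual of `Lip₀(M)`. -/
noncomputable def freeSubmodule (M : Type*) [MetricSpace M] (o : M) :
    Submodule ℝ (StrongDual ℝ (LipZero M o)) :=
  (Submodule.span ℝ (Set.range (evalAt o))).topologicalClosure

/-- The Lipschitz-free space `F(M)`: the closed span of the evaluations in the dual of `Lip₀(M)`,
with the norm of the dual. -/
def FreeSpace (M : Type*) [MetricSpace M] (o : M) : Type _ := freeSubmodule M o

noncomputable instance : NormedAddCommGroup (FreeSpace M o) :=
  Submodule.normedAddCommGroup (freeSubmodule M o)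

noncomputable instance : NormedSpace ℝ (FreeSpace M o) :=
  Submodule.normedSpace (freeSubmodule M o)

/-- The inclusion of the free space in the dual of `Lip₀(M)`. -/
noncomputable def toDual : FreeSpace M o →ₗᵢ[ℝ] StrongDual ℝ (LipZero M o) :=
  (freeSubmodule M o).subtypeₗᵢ

lemma isClosed_freeSubmodule :
    IsClosed ((freeSubmodule M o : Submodule ℝ _) : Set (StrongDual ℝ (LipZero M o))) :=
  Submodule.isClosed_topologicalClosure _

lemma range_toDual : Set.range (toDual o) = (freeSubmodule M o : Set (StrongDual ℝ (LipZero M o))) := by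
  ext z
  constructor
  · rintro ⟨u, rfl⟩
    exact Subtype.property (p := fun z => z ∈ freeSubmodule M o) u
  · intro hz
    exact ⟨Subtype.mk (p := fun z => z ∈ freeSubmodule M o) z hz, rfl⟩

instance : CompleteSpace (FreeSpace M o) := by
  have hc : IsComplete ((freeSubmodule M o : Submodule ℝ _) : Set (StrongDual ℝ (LipZero M o))) :=
    (isClosed_freeSubmodule o).isComplete
  exact completeSpace_coe_iff_isComplete.mpr hc

/-- Evaluation at `x` as an element of the free space. -/
noncomputable def delta (x : M) : FreeSpace M o :=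
  Subtype.mk (p := fun z => z ∈ freeSubmodule M o) (evalAt o x)
    (Submodule.le_topologicalClosure _ (Submodule.subset_span ⟨x, rfl⟩))

@[simp] lemma toDual_delta (x : M) : toDual o (delta o x) = evalAt o x := rfl

lemma delta_base : delta o o = 0 := by
  apply (toDual o).injective
  rw [map_zero, toDual_delta]
  apply ContinuousLinearMap.ext
  intro f
  rw [evalAt_apply]
  exact f.map_base

lemma norm_delta_sub_le (x y : M) : ‖delta o x - delta o y‖ ≤ dist x y := by
  rw [← (toDual o).norm_map, map_sub, toDual_delta, toDual_delta]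
  apply ContinuousLinearMap.opNorm_le_bound _ dist_nonneg
  intro f
  have := f.abs_sub_le x y
  rw [mul_comm] at this
  exact this

lemma norm_delta_le (x : M) : ‖delta o x‖ ≤ dist x o := by
  have := norm_delta_sub_le o x o
  rw [delta_base] at this
  simpa using this

/-- A closed submodule of the free space containing all the `delta x` is everything. -/
lemma mem_of_closed {S : Submodule ℝ (FreeSpace M o)} (hS : IsClosed (S : Set (FreeSpace M o)))
    (h : ∀ x, delta o x ∈ S) (u : FreeSpace M o) : u ∈ S := by
  have hcl : IsClosed ((S.map (toDual o).toLinearMap : Submodule ℝ _) : Set (StrongDual ℝ (LipZero M o))) := by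
    have h1 : Topology.IsClosedEmbedding (toDual o) := by
      refine ⟨(toDual o).isometry.isEmbedding, ?_⟩
      rw [range_toDual]
      exact isClosed_freeSubmodule o
    exact h1.isClosedMap _ hS
  have hle : Submodule.span ℝ (Set.range (evalAt o)) ≤ S.map (toDual o).toLinearMap := by
    rw [Submodule.span_le]
    rintro _ ⟨x, rfl⟩
    exact ⟨delta o x, h x, rfl⟩
  have h2 : freeSubmodule M o ≤ S.map (toDual o).toLinearMap :=
    Submodule.topologicalClosure_minimal _ hle hcl
  have hu : toDual o u ∈ freeSubmodule M o := by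
    have := range_toDual o (M := M)
    have h3 : toDual o u ∈ Set.range (toDual o) := ⟨u, rfl⟩
    rw [this] at h3
    exact h3
  obtain ⟨v, hv, hvu⟩ := h2 hu
  have : v = u := (toDual o).injective hvu
  exact this ▸ hv

/-- Continuous linear maps out of the free space agreeing on the `delta x` are equal. -/
lemma hom_ext {Y : Type*} [NormedAddCommGroup Y] [NormedSpace ℝ Y]
    {T₁ T₂ : FreeSpace M o →L[ℝ] Y} (h : ∀ x, T₁ (delta o x) = T₂ (delta o x)) : T₁ = T₂ := by
  apply ContinuousLinearMap.ext
  intro u
  have hS : IsClosed (((T₁ - T₂).toLinearMap.ker : Submodule ℝ _) : Set (FreeSpace M o)) :=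
    (isClosed_singleton (x := (0 : Y))).preimage (T₁ - T₂).continuous
  have := mem_of_closed o hS (fun x => by
    simp [LinearMap.mem_ker, h x]) u
  simpa [LinearMap.mem_ker, sub_eq_zero] using this

/-- The span of the `delta x` is dense in the free space. -/
lemma dense_span_delta : Dense ((Submodule.span ℝ (Set.range (delta o)) : Submodule ℝ _) : Set (FreeSpace M o)) := by
  intro u
  have hc : IsClosed (((Submodule.span ℝ (Set.range (delta o))).topologicalClosure : Submodule ℝ _) : Set (FreeSpace M o)) :=
    Submodule.isClosed_topologicalClosure _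
  exact mem_of_closed o hc (fun x => Submodule.le_topologicalClosure _ (Submodule.subset_span ⟨x, rfl⟩)) u

end free

section linearization

variable {M : Type*} [MetricSpace M] (o : M)
variable {Y : Type*} [NormedAddCommGroup Y] [NormedSpace ℝ Y]

/-- Precomposition with a Lipschitz map vanishing at the base point. -/
noncomputable def pullback (φ : M → Y) (L : ℝ≥0) (hφ : LipschitzWith L φ) (hφo : φ o = 0) :
    StrongDual ℝ Y →L[ℝ] LipZero M o :=
  LinearMap.mkContinuous
    { toFun := fun g => LipZero.mk (fun x => g (φ x)) ⟨‖g‖₊ * L, g.lipschitz.comp hφ⟩ (by simp [hφo])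
      map_add' := fun _ _ => rfl
      map_smul' := fun _ _ => rfl }
    L
    (fun g => by
      apply LipZero.norm_le (by positivity)
      intro x y
      change |g (φ x) - g (φ y)| ≤ _
      have h1 : |g (φ x) - g (φ y)| = ‖g (φ x - φ y)‖ := by
        rw [map_sub, Real.norm_eq_abs]
      rw [h1]
      calc ‖g (φ x - φ y)‖ ≤ ‖g‖ * ‖φ x - φ y‖ := g.le_opNorm _
        _ ≤ ‖g‖ * (L * dist x y) := by
            apply mul_le_mul_of_nonneg_left _ (norm_nonneg _)
            rw [← dist_eq_norm]
            exact hφ.dist_le_mul x y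
        _ = _ := by ring)

/-- **Linearization**: a Lipschitz map `φ : M → Y` into a Banach space with `φ o = 0` extends to a
bounded linear map on the free space with the same constant. -/
theorem exists_linearization [CompleteSpace Y] (φ : M → Y) (L : ℝ≥0) (hφ : LipschitzWith L φ)
    (hφo : φ o = 0) :
    ∃ T : FreeSpace M o →L[ℝ] Y, ‖T‖ ≤ L ∧ ∀ x, T (delta o x) = φ x := by
  classical
  set Φ := pullback o φ L hφ hφo with hΦ
  have hΦn : ‖Φ‖ ≤ L := LinearMap.mkContinuous_norm_le _ L.2 _
  -- the adjoint
  set A : StrongDual ℝ (LipZero M o) →L[ℝ] StrongDual ℝ (StrongDual ℝ Y) :=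
    (ContinuousLinearMap.compL ℝ (StrongDual ℝ Y) (LipZero M o) ℝ).flip Φ with hA
  have hAapp : ∀ (μ : StrongDual ℝ (LipZero M o)) g, A μ g = μ (Φ g) := fun _ _ => rfl
  have hAn : ∀ μ, ‖A μ‖ ≤ L * ‖μ‖ := by
    intro μ
    apply ContinuousLinearMap.opNorm_le_bound _ (by positivity)
    intro g
    rw [hAapp]
    calc ‖μ (Φ g)‖ ≤ ‖μ‖ * ‖Φ g‖ := μ.le_opNorm _
      _ ≤ ‖μ‖ * (‖Φ‖ * ‖g‖) := mul_le_mul_of_nonneg_left (Φ.le_opNorm _) (norm_nonneg _)
      _ ≤ ‖μ‖ * (L * ‖g‖) := by
          apply mul_le_mul_of_nonneg_left _ (norm_nonneg _)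
          exact mul_le_mul_of_nonneg_right hΦn (norm_nonneg _)
      _ = _ := by ring
  -- the canonical embedding in the bidual
  let J : Y →ₗᵢ[ℝ] StrongDual ℝ (StrongDual ℝ Y) := NormedSpace.inclusionInDoubleDualLi ℝ
  have hJapp : ∀ y g, J y g = g y := fun _ _ => rfl
  have hAδ : ∀ x, A (evalAt o x) = J (φ x) := by
    intro x
    apply ContinuousLinearMap.ext
    intro g
    rw [hAapp, hJapp, evalAt_apply]
    rfl
  let R : Submodule ℝ (StrongDual ℝ (StrongDual ℝ Y)) := LinearMap.range J.toLinearMap
  have hRcl : IsClosed (R : Set (StrongDual ℝ (StrongDual ℝ Y))) := by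
    have : (R : Set (StrongDual ℝ (StrongDual ℝ Y))) = Set.range J := by
      ext z
      constructor
      · rintro ⟨y, rfl⟩
        exact ⟨y, rfl⟩
      · rintro ⟨y, rfl⟩
        exact ⟨y, rfl⟩
    rw [this]
    exact (J.isometry.isUniformInducing.isComplete_range).isClosed
  have hmem : ∀ u : FreeSpace M o, ∃ y, J y = A (toDual o u) := by
    intro u
    have hS : IsClosed (((R.comap (A ∘L (toDual o).toContinuousLinearMap).toLinearMap : Submodule ℝ _)) : Set (FreeSpace M o)) :=
      hRcl.preimage (A ∘L (toDual o).toContinuousLinearMap).continuous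
    have := mem_of_closed o hS (fun x => by
      change A (evalAt o x) ∈ R
      rw [hAδ]
      exact ⟨φ x, rfl⟩) u
    exact this
  choose f hf using hmem
  let T₀ : FreeSpace M o →ₗ[ℝ] Y :=
    { toFun := f
      map_add' := fun u v => J.injective (by
        rw [hf, map_add, map_add, map_add, hf, hf])
      map_smul' := fun c u => J.injective (by
        rw [hf, map_smul, map_smul, RingHom.id_apply, map_smul, hf]) }
  have hnorm : ∀ u, ‖T₀ u‖ ≤ L * ‖u‖ := by
    intro u
    have h1 : ‖T₀ u‖ = ‖A (toDual o u)‖ := by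
      change ‖f u‖ = _
      rw [← hf, J.norm_map]
    rw [h1]
    have h2 := hAn (toDual o u)
    rwa [(toDual o).norm_map] at h2
  refine ⟨T₀.mkContinuous L hnorm, LinearMap.mkContinuous_norm_le _ L.2 _, ?_⟩
  intro x
  apply J.injective
  change J (f (delta o x)) = _
  rw [hf, toDual_delta]
  exact hAδ x

/-- The range of a map on the free space stays in any closed subspace containing the values on
the `delta x`. -/
lemma mem_of_delta_mem (T : FreeSpace M o →L[ℝ] Y) {W : Submodule ℝ Y}
    (hW : IsClosed (W : Set Y)) (h : ∀ x, T (delta o x) ∈ W) : ∀ u, T u ∈ W := by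
  intro u
  have hS : IsClosed (((W.comap T.toLinearMap : Submodule ℝ _)) : Set (FreeSpace M o)) :=
    hW.preimage T.continuous
  exact mem_of_closed o hS h u

end linearization

end Vale.Agent.Lib.P090.Bdd
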