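import Mathlib
import Vale.Agent.Lib.P090.Free

/-! The bounded approximation property for Lipschitz-free spaces over uniformly discrete spaces. -/

open scoped NNReal

namespace Vale.Agent.Lib.P090.Bdd

/-- The `c`-bounded approximation property of a normed space: for every norm-compact `C` and
`ε > 0` there is a finite-rank bounded operator of norm at most `c` moving each point of `C` by
less than `ε`. -/
def HasBAP (c : ℝ) (X : Type*) [NormedAddCommGroup X] [NormedSpace ℝ X] : Prop :=
  ∀ C : Set X, IsCompact C → ∀ ε > 0, ∃ T : X →L[ℝ] X,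
    FiniteDimensional ℝ (LinearMap.range T.toLinearMap) ∧ ‖T‖ ≤ c ∧ ∀ u ∈ C, ‖T u - u‖ < ε

lemma HasBAP.nonneg {c : ℝ} {X : Type*} [NormedAddCommGroup X] [NormedSpace ℝ X]
    (h : HasBAP c X) : 0 ≤ c := by
  obtain ⟨T, _, hT, _⟩ := h ∅ isCompact_empty 1 one_pos
  exact (norm_nonneg T).trans hT

/-- To get the BAP it suffices to approximate on finite subfamilies of a total family. -/
lemma hasBAP_of_family {ι X : Type*} [NormedAddCommGroup X] [NormedSpace ℝ X] (e : ι → X)
    (hd : Dense ((Submodule.span ℝ (Set.range e) : Submodule ℝ X) : Set X)) {c : ℝ} (hc : 0 ≤ c)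
    (h : ∀ N : Finset ι, ∀ η > 0, ∃ T : X →L[ℝ] X,
      FiniteDimensional ℝ (LinearMap.range T.toLinearMap) ∧ ‖T‖ ≤ c ∧
        ∀ i ∈ N, ‖T (e i) - e i‖ ≤ η) : HasBAP c X := by
  classical
  intro C hC ε hε
  set ε' : ℝ := ε / (2 * c + 4) with hε'
  have hden : 0 < 2 * c + 4 := by linarith
  have hε'pos : 0 < ε' := div_pos hε hden
  have hw : ∀ u : X, ∃ w ∈ ((Submodule.span ℝ (Set.range e) : Submodule ℝ X) : Set X), dist u w < ε' :=
    fun u => hd.exists_dist_lt u hε'pos
  choose w hwmem hwdist using hw
  obtain ⟨t, -, ht⟩ := hC.elim_nhds_subcover (fun u => Metric.ball u ε')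
    (fun u _ => Metric.ball_mem_nhds u hε'pos)
  have hf : ∀ u : X, ∃ f : ι →₀ ℝ, (f.sum fun i a => a • e i) = w u := fun u =>
    Finsupp.mem_span_range_iff_exists_finsupp.mp (hwmem u)
  choose f hf using hf
  set N : Finset ι := t.biUnion fun u => (f u).support with hN
  set A : ℝ := ∑ u ∈ t, ∑ i ∈ (f u).support, |f u i| + 1 with hA
  have hApos : 0 < A := by
    have : 0 ≤ ∑ u ∈ t, ∑ i ∈ (f u).support, |f u i| :=
      Finset.sum_nonneg fun _ _ => Finset.sum_nonneg fun _ _ => abs_nonneg _
    linarith
  obtain ⟨T, hfin, hT, hTe⟩ := h N (ε' / A) (div_pos hε'pos hApos)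
  refine ⟨T, hfin, hT, ?_⟩
  intro x hx
  obtain ⟨u, hut, hxu⟩ := Set.mem_iUnion₂.mp (ht hx)
  have hxu' : ‖x - u‖ < ε' := by simpa [dist_eq_norm] using hxu
  have huw : ‖u - w u‖ < ε' := by simpa [dist_eq_norm] using hwdist u
  have hxw : ‖x - w u‖ < 2 * ε' := by
    have : x - w u = (x - u) + (u - w u) := by abel
    rw [this]
    calc _ ≤ ‖x - u‖ + ‖u - w u‖ := norm_add_le _ _
      _ < _ := by linarith
  have hTw : ‖T (w u) - w u‖ ≤ ε' := by
    have e1 : T (w u) - w u = ∑ i ∈ (f u).support, f u i • (T (e i) - e i) := by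
      rw [← hf u, Finsupp.sum, map_sum]
      simp only [map_smul, smul_sub, Finset.sum_sub_distrib]
    rw [e1]
    calc ‖∑ i ∈ (f u).support, f u i • (T (e i) - e i)‖
        ≤ ∑ i ∈ (f u).support, ‖f u i • (T (e i) - e i)‖ := norm_sum_le _ _
      _ ≤ ∑ i ∈ (f u).support, |f u i| * (ε' / A) := by
          apply Finset.sum_le_sum
          intro i hi
          rw [norm_smul, Real.norm_eq_abs]
          apply mul_le_mul_of_nonneg_left _ (abs_nonneg _)
          apply hTe i
          exact Finset.mem_biUnion.mpr ⟨u, hut, hi⟩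
      _ = (∑ i ∈ (f u).support, |f u i|) * (ε' / A) := by rw [Finset.sum_mul]
      _ ≤ A * (ε' / A) := by
          apply mul_le_mul_of_nonneg_right _ (div_pos hε'pos hApos).le
          have h1 : ∑ i ∈ (f u).support, |f u i| ≤ ∑ v ∈ t, ∑ i ∈ (f v).support, |f v i| :=
            Finset.single_le_sum (f := fun v => ∑ i ∈ (f v).support, |f v i|)
              (fun _ _ => Finset.sum_nonneg fun _ _ => abs_nonneg _) hut
          linarith
      _ = ε' := by field_simp
  have e2 : T x - x = T (x - w u) + (T (w u) - w u) - (x - w u) := by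
    rw [map_sub]; abel
  rw [e2]
  have h3 : ‖T (x - w u)‖ ≤ c * (2 * ε') := by
    calc _ ≤ ‖T‖ * ‖x - w u‖ := T.le_opNorm _
      _ ≤ c * ‖x - w u‖ := mul_le_mul_of_nonneg_right hT (norm_nonneg _)
      _ ≤ _ := mul_le_mul_of_nonneg_left hxw.le hc
  have hfinal : (2 * c + 3) * ε' < ε := by
    have : (2 * c + 4) * ε' = ε := by rw [hε']; field_simp
    nlinarith
  calc ‖T (x - w u) + (T (w u) - w u) - (x - w u)‖
      ≤ ‖T (x - w u) + (T (w u) - w u)‖ + ‖x - w u‖ := norm_sub_le _ _
    _ ≤ ‖T (x - w u)‖ + ‖T (w u) - w u‖ + ‖x - w u‖ := by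
        gcongr; exact norm_add_le _ _
    _ ≤ c * (2 * ε') + ε' + 2 * ε' := by linarith
    _ = (2 * c + 3) * ε' := by ring
    _ < ε := hfinal

section local_bound

variable {M : Type*} [MetricSpace M] (o : M)

/-- A bounded operator on the free space whose values on the `delta x` lie in a finite-dimensional
subspace has finite rank. -/
lemma finrank_of_delta_mem {T : FreeSpace M o →L[ℝ] FreeSpace M o}
    (W : Submodule ℝ (FreeSpace M o)) [FiniteDimensional ℝ W] (h : ∀ x, T (delta o x) ∈ W) :
    FiniteDimensional ℝ (LinearMap.range T.toLinearMap) := by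
  have hW : IsClosed (W : Set (FreeSpace M o)) := Submodule.closed_of_finiteDimensional W
  have hle : LinearMap.range T.toLinearMap ≤ W := by
    rintro _ ⟨u, rfl⟩
    exact mem_of_delta_mem o T hW h u
  exact Submodule.finiteDimensional_of_le hle

/-- Quantitative approximation property: over a uniformly discrete space with separation `s`,
a finite set of radius at most `ρ` is fixed by a finite rank operator of norm at most
`3 √(ρ/s) + 2`. -/
theorem exists_fixing_operator {s : ℝ} (hs : 0 < s) (hsep : ∀ x y : M, x ≠ y → s ≤ dist x y)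
    (N : Finset M) {ρ : ℝ} (hρ : 0 < ρ) (hN : ∀ u ∈ N, dist u o ≤ ρ) :
    ∃ T : FreeSpace M o →L[ℝ] FreeSpace M o,
      FiniteDimensional ℝ (LinearMap.range T.toLinearMap) ∧
      ‖T‖ ≤ 3 * Real.sqrt (ρ / s) + 2 ∧ ∀ u ∈ N, T (delta o u) = delta o u := by
  classical
  set N₀ : Finset M := insert o N with hN₀
  have hN₀ne : N₀.Nonempty := ⟨o, Finset.mem_insert_self _ _⟩
  have hN₀r : ∀ a ∈ N₀, dist a o ≤ ρ := by
    intro a ha
    rcases Finset.mem_insert.mp ha with rfl | ha
    · simpa using hρ.le
    · exact hN a ha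
  set r : ℝ := Real.sqrt (ρ / s) with hr
  have hrpos : 0 < r := Real.sqrt_pos.mpr (div_pos hρ hs)
  have hr2 : r * r = ρ / s := Real.mul_self_sqrt (div_pos hρ hs).le
  set τ : ℝ := s * r with hτ
  have hτpos : 0 < τ := mul_pos hs hrpos
  have hρτ : ρ / τ = r := by
    have : ρ = s * (r * r) := by rw [hr2]; field_simp
    rw [hτ, this]; field_simp
  -- nearest point
  have hπ : ∀ x : M, ∃ z ∈ N₀, ∀ y ∈ N₀, dist x z ≤ dist x y := fun x =>
    Finset.exists_min_image N₀ (dist x) hN₀ne
  choose π hπmem hπmin using hπ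
  have hπfix : ∀ u ∈ N₀, π u = u := by
    intro u hu
    have := hπmin u u hu
    rw [dist_self] at this
    have h0 : dist u (π u) = 0 := le_antisymm this dist_nonneg
    exact (dist_eq_zero.mp h0).symm
  set D : M → ℝ := fun x => dist x (π x) with hD
  have hD1 : ∀ x y, D x ≤ dist x y + D y := by
    intro x y
    calc D x ≤ dist x (π y) := hπmin x (π y) (hπmem y)
      _ ≤ dist x y + dist y (π y) := dist_triangle _ _ _
  set w : M → ℝ := fun x => max 0 (1 - D x / τ) with hw
  have hw0 : ∀ x, 0 ≤ w x := fun x => le_max_left _ _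
  have hw1 : ∀ x, w x ≤ 1 := by
    intro x
    apply max_le zero_le_one
    have : 0 ≤ D x / τ := div_nonneg dist_nonneg hτpos.le
    linarith
  have hwl : ∀ x y, |w x - w y| ≤ dist x y / τ := by
    have key : ∀ x y, w x - w y ≤ dist x y / τ := by
      intro x y
      have h1 : D y ≤ dist y x + D x := hD1 y x
      have h2 : D y / τ ≤ dist x y / τ + D x / τ := by
        rw [← add_div, dist_comm x y]
        exact div_le_div_of_nonneg_right h1 hτpos.le
      have h3 : 0 ≤ dist x y / τ := div_nonneg dist_nonneg hτpos.le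
      have h4 : 1 - D y / τ ≤ w y := le_max_right _ _
      have h5 : w x ≤ w y + dist x y / τ := by
        apply max_le
        · linarith [hw0 y]
        · linarith
      linarith
    intro x y
    rw [abs_le]
    constructor
    · have := key y x
      rw [dist_comm] at this
      linarith
    · exact key x y
  set φ : M → FreeSpace M o := fun x => w x • delta o (π x) with hφ
  have hL0 : 0 ≤ 3 * r + 2 := by positivity
  have hdeltaN : ∀ a ∈ N₀, ‖delta o a‖ ≤ ρ := fun a ha => (norm_delta_le o a).trans (hN₀r a ha)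
  have hφL : ∀ x y, dist (φ x) (φ y) ≤ (3 * r + 2) * dist x y := by
    intro x y
    by_cases hxy : x = y
    · simp [hxy]
    have hd : s ≤ dist x y := hsep x y hxy
    have hdpos : 0 < dist x y := lt_of_lt_of_le hs hd
    rw [dist_eq_norm]
    set a := π x with ha
    set b := π y with hb
    have haN : a ∈ N₀ := hπmem x
    have hbN : b ∈ N₀ := hπmem y
    have hfirst : |w x - w y| * ‖delta o a‖ ≤ dist x y * r := by
      calc |w x - w y| * ‖delta o a‖ ≤ (dist x y / τ) * ρ :=
            mul_le_mul (hwl x y) (hdeltaN a haN) (norm_nonneg _) (div_nonneg dist_nonneg hτpos.le)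
        _ = dist x y * (ρ / τ) := by ring
        _ = dist x y * r := by rw [hρτ]
    by_cases hwy : w y = 0
    · have e : φ x - φ y = (w x - w y) • delta o a := by
        simp only [hφ, hwy, zero_smul, sub_zero, ← ha]
      rw [e, norm_smul, Real.norm_eq_abs]
      nlinarith
    · have hwypos : 0 < w y := lt_of_le_of_ne (hw0 y) (Ne.symm hwy)
      have hDy : D y < τ := by
        have h1 : 0 < 1 - D y / τ := by
          by_contra hcon
          have : w y = 0 := by
            simp only [hw]
            exact max_eq_left (not_lt.mp hcon)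
          exact hwy this
        have h2 : D y / τ < 1 := by linarith
        exact (div_lt_one hτpos).mp h2
      have hab : dist a b ≤ D x + dist x y + D y := by
        calc dist a b ≤ dist a x + dist x b := dist_triangle _ _ _
          _ ≤ dist a x + (dist x y + dist y b) := by
              gcongr; exact dist_triangle _ _ _
          _ = D x + dist x y + D y := by
              simp only [hD, dist_comm a x, ← ha, ← hb]; ring
      have hab2 : dist a b ≤ (2 * r + 2) * dist x y := by
        have h1 := hD1 x y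
        have h2 : τ ≤ r * dist x y := by
          rw [hτ, mul_comm]
          exact mul_le_mul_of_nonneg_left hd hrpos.le
        nlinarith
      have e : φ x - φ y = (w x - w y) • delta o a + w y • (delta o a - delta o b) := by
        simp only [hφ, ← ha, ← hb, smul_sub, sub_smul]
        abel
      rw [e]
      calc ‖(w x - w y) • delta o a + w y • (delta o a - delta o b)‖
          ≤ ‖(w x - w y) • delta o a‖ + ‖w y • (delta o a - delta o b)‖ := norm_add_le _ _
        _ = |w x - w y| * ‖delta o a‖ + w y * ‖delta o a - delta o b‖ := by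
            rw [norm_smul, norm_smul, Real.norm_eq_abs, Real.norm_eq_abs, abs_of_pos hwypos]
        _ ≤ dist x y * r + 1 * dist a b := by
            apply add_le_add hfirst
            exact mul_le_mul (hw1 y) (norm_delta_sub_le o a b) (norm_nonneg _) zero_le_one
        _ ≤ _ := by nlinarith
  let L : ℝ≥0 := ⟨3 * r + 2, hL0⟩
  have hLip : LipschitzWith L φ := LipschitzWith.of_dist_le_mul fun x y => hφL x y
  have ho : o ∈ N₀ := Finset.mem_insert_self _ _
  have hwfix : ∀ u ∈ N₀, w u = 1 := by
    intro u hu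
    have h1 : D u = 0 := by
      simp only [hD, hπfix u hu, dist_self]
    simp only [hw, h1, zero_div, sub_zero]
    exact max_eq_right zero_le_one
  have hφo : φ o = 0 := by
    simp only [hφ, hπfix o ho, hwfix o ho, one_smul, delta_base]
  obtain ⟨T, hTn, hTδ⟩ := exists_linearization o φ L hLip hφo
  refine ⟨T, ?_, hTn, ?_⟩
  · set W : Submodule ℝ (FreeSpace M o) := Submodule.span ℝ ((N₀.image (delta o) : Finset _) : Set (FreeSpace M o)) with hWdef
    haveI : FiniteDimensional ℝ W := FiniteDimensional.span_finset ℝ _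
    apply finrank_of_delta_mem o W
    intro x
    rw [hTδ]
    apply W.smul_mem
    apply Submodule.subset_span
    exact Finset.mem_coe.mpr (Finset.mem_image_of_mem _ (hπmem x))
  · intro u hu
    have huN : u ∈ N₀ := Finset.mem_insert_of_mem hu
    rw [hTδ]
    simp only [hφ, hπfix u huN, hwfix u huN, one_smul]

/-- Bounded uniformly discrete spaces: the BAP with constant `3 √(R/s) + 2`. -/
theorem hasBAP_of_bounded {s R : ℝ} (hs : 0 < s) (hR : 0 < R)
    (hsep : ∀ x y : M, x ≠ y → s ≤ dist x y) (hrad : ∀ x, dist x o ≤ R) :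
    HasBAP (3 * Real.sqrt (R / s) + 2) (FreeSpace M o) := by
  apply hasBAP_of_family (delta o) (dense_span_delta o) (by positivity)
  intro N η hη
  obtain ⟨T, h1, h2, h3⟩ := exists_fixing_operator o hs hsep N hR (fun u _ => hrad u)
  refine ⟨T, h1, h2, ?_⟩
  intro u hu
  rw [h3 u hu, sub_self, norm_zero]
  exact hη.le

end local_bound

end Vale.Agent.Lib.P090.Bdd
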