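import Vale.Agent.Lib.P090.Walks

/-!
# Finite covers of large girth

The `ℤ/2`-homology cover of a finite graph has larger girth.
-/

set_option linter.unusedSectionVars false
set_option linter.unusedVariables false

namespace Vale.Agent.Lib.P090

open List

variable {V W U : Type*}

/-- A locally bijective graph map. -/
structure IsCover (H : SimpleGraph V) (G : SimpleGraph W) (p : V → W) : Prop where
  adj : ∀ a b, H.Adj a b → G.Adj (p a) (p b)
  inj : ∀ a b₁ b₂, H.Adj a b₁ → H.Adj a b₂ → p b₁ = p b₂ → b₁ = b₂
  surj : ∀ a b, G.Adj (p a) b → ∃ q, H.Adj a q ∧ p q = b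
  onto : Function.Surjective p

theorem IsCover.id (G : SimpleGraph V) : IsCover G G id :=
  ⟨fun _ _ h => h, fun _ _ _ _ _ h => h, fun _ b h => ⟨b, h, rfl⟩, Function.surjective_id⟩

theorem IsCover.comp {H : SimpleGraph V} {G : SimpleGraph W} {K : SimpleGraph U}
    {p : V → W} {p' : W → U} (h : IsCover H G p) (h' : IsCover G K p') :
    IsCover H K (p' ∘ p) where
  adj a b hab := h'.adj _ _ (h.adj _ _ hab)
  inj a b₁ b₂ h₁ h₂ e := h.inj _ _ _ h₁ h₂ (h'.inj _ _ _ (h.adj _ _ h₁) (h.adj _ _ h₂) e)
  surj a b hab := by
    obtain ⟨q, hq, e⟩ := h'.surj _ _ hab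
    obtain ⟨q', hq', e'⟩ := h.surj _ _ hq
    exact ⟨q', hq', by simp [e', e]⟩
  onto := h'.onto.comp h.onto

/-- The list of edges traversed by a list of vertices. -/
def edgesOf : List V → List (Sym2 V)
  | a :: b :: t => s(a, b) :: edgesOf (b :: t)
  | _ => []

@[simp] theorem edgesOf_nil : edgesOf ([] : List V) = [] := rfl
@[simp] theorem edgesOf_single (a : V) : edgesOf [a] = [] := rfl
@[simp] theorem edgesOf_cons2 (a b : V) (t : List V) :
    edgesOf (a :: b :: t) = s(a, b) :: edgesOf (b :: t) := rfl

theorem mem_of_mem_edgesOf : ∀ {l : List V} {e : Sym2 V} {v : V}, e ∈ edgesOf l → v ∈ e → v ∈ l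
  | [], _, _, h, _ => by simp at h
  | [_], _, _, h, _ => by simp at h
  | a :: b :: t, e, v, h, hv => by
      rw [edgesOf_cons2, mem_cons] at h
      rcases h with h | h
      · subst h
        simp only [Sym2.mem_iff] at hv
        rcases hv with rfl | rfl <;> simp
      · exact mem_cons_of_mem _ (mem_of_mem_edgesOf h hv)

theorem edgesOf_nodup : ∀ {l : List V}, l.Nodup → (edgesOf l).Nodup
  | [], _ => by simp
  | [_], _ => by simp
  | a :: b :: t, h => by
      rw [edgesOf_cons2, nodup_cons]
      rw [nodup_cons] at h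
      refine ⟨?_, edgesOf_nodup h.2⟩
      intro hmem
      exact h.1 (mem_of_mem_edgesOf hmem (by simp))

theorem edgesOf_length : ∀ {t : List V} {a : V}, (edgesOf (a :: t)).length = t.length := by
  intro t
  induction t with
  | nil => intro a; simp
  | cons b t ih => intro a; simp [ih]

open Classical in
/-- The `ℤ/2`-homology cover of a graph. -/
noncomputable def hcGraph (G : SimpleGraph V) : SimpleGraph (V × (Sym2 V → ZMod 2)) where
  Adj p q := G.Adj p.1 q.1 ∧ q.2 = p.2 + Pi.single s(p.1, q.1) 1
  symm := ⟨by
    rintro ⟨a, f⟩ ⟨b, g⟩ ⟨h, e⟩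
    refine ⟨h.symm, ?_⟩
    simp only at e ⊢
    rw [e, Sym2.eq_swap, add_assoc]
    have : (Pi.single s(b, a) (1 : ZMod 2) + Pi.single s(b, a) 1 : Sym2 V → ZMod 2) = 0 := by
      rw [← two_smul ℕ]
      ext x
      simp only [Pi.smul_apply, Pi.zero_apply, nsmul_eq_mul, Nat.cast_ofNat]
      have h2 : (2 : ZMod 2) = 0 := by decide
      rw [h2, zero_mul]
    rw [this, add_zero]⟩
  loopless := ⟨fun p h => h.1.ne rfl⟩

theorem hcGraph_isCover (G : SimpleGraph V) : IsCover (hcGraph G) G Prod.fst where
  adj a b h := h.1
  inj := by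
    rintro ⟨a, f⟩ ⟨b₁, g₁⟩ ⟨b₂, g₂⟩ ⟨h₁, e₁⟩ ⟨h₂, e₂⟩ e
    simp only at e e₁ e₂
    subst e
    rw [e₁, e₂]
  surj := by
    classical
    rintro ⟨a, f⟩ b hab
    exact ⟨(b, f + Pi.single s(a, b) 1), ⟨hab, by congr⟩, rfl⟩
  onto := fun a => ⟨(a, 0), rfl⟩

open Classical in
/-- The coordinate of the fibre at an edge that is not traversed does not change. -/
theorem coord_const {G : SimpleGraph V} {e₀ : Sym2 V} :
    ∀ {t : List (V × (Sym2 V → ZMod 2))} {p q : V × (Sym2 V → ZMod 2)},
      (p :: t).IsChain (hcGraph G).Adj → e₀ ∉ edgesOf ((p :: t).map Prod.fst) →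
      (p :: t).getLast? = some q → q.2 e₀ = p.2 e₀ := by
  intro t
  induction t with
  | nil =>
    intro p q _ _ hl
    simp at hl
    rw [hl]
  | cons a t ih =>
    intro p q hc he hl
    rw [isChain_cons_cons] at hc
    rw [getLast?_cons_cons] at hl
    simp only [map_cons, edgesOf_cons2, mem_cons, not_or] at he
    have h1 := ih hc.2 (by simpa using he.2) hl
    rw [h1, hc.1.2]
    simp only [Pi.add_apply]
    rw [Pi.single_eq_of_ne (fun h => he.1 h), add_zero]

/-- The homology cover has larger girth. -/
theorem noClosed_hcGraph {G : SimpleGraph V} {g : ℕ} (hG : NoClosed G g) :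
    NoClosed (hcGraph G) (g + 1) := by
  classical
  intro l hc hn h2 hl hclosed
  have hcov := hcGraph_isCover G
  have hcp : (l.map Prod.fst).IsChain G.Adj := List.isChain_map_of_isChain _ hcov.adj hc
  have hnp : NoBack (l.map Prod.fst) :=
    NoBack.map_of_locInj Prod.fst hcov.inj (fun _ _ h => h.symm) hc hn
  match l, hc, hn, h2, hl, hclosed, hcp, hnp with
  | [], _, _, h2, _, _, _, _ => simp at h2
  | [_], _, _, h2, _, _, _, _ => simp at h2
  | p :: q :: t, hc, hn, h2, hl, hclosed, hcp, hnp =>
    -- the projection cannot be closed of length at most `g`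
    have hcl : p.1 = ((p :: q :: t).getLast (by simp)).1 := by
      have : (p :: q :: t).getLast? = some ((p :: q :: t).getLast (by simp)) :=
        List.getLast?_eq_some_getLast (by simp)
      rw [this] at hclosed
      simp only [head?_cons, Option.some.injEq] at hclosed
      rw [← hclosed]
    -- the tail has distinct projected vertices
    have hcq : ((q :: t).map Prod.fst).IsChain G.Adj := by
      have := hcp
      simp only [map_cons, isChain_cons_cons] at this ⊢
      exact this.2
    have hnq : NoBack ((q :: t).map Prod.fst) := hnp.tail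
    have hnd : ((q :: t).map Prod.fst).Nodup :=
      NoBack.nodup_of_noClosed hG hcq hnq (by simp at hl ⊢; omega)
    set e₀ : Sym2 V := s(p.1, q.1) with he₀
    have hadj : (hcGraph G).Adj p q := (isChain_cons_cons.mp hc).1
    have hnotin : e₀ ∉ edgesOf ((q :: t).map Prod.fst) := by
      cases t with
      | nil => simp
      | cons y t' =>
        simp only [map_cons, edgesOf_cons2, mem_cons, not_or]
        constructor
        · intro he
          -- `s(p, q) = s(q, y)` forces `y = p`
          have hpq : p.1 ≠ q.1 := hadj.1.ne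
          have hyp : y.1 = p.1 := by
            rw [he₀] at he
            rcases Sym2.eq_iff.mp he with ⟨h1, h2⟩ | ⟨h1, h2⟩
            · exact absurd h1 hpq
            · exact h1.symm
          have hnb := hnp
          simp only [map_cons] at hnb
          exact hnb.1 hyp.symm
        · intro he
          have hq : q.1 ∈ (y :: t').map Prod.fst :=
            mem_of_mem_edgesOf (by simpa using he) (by rw [he₀]; simp)
          have := hnd
          simp only [map_cons, nodup_cons] at this
          apply this.1
          simpa using hq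
    have hlast : (q :: t).getLast? = some p := by
      have : (p :: q :: t).getLast? = (q :: t).getLast? := getLast?_cons_cons
      rw [← this, ← hclosed]
      simp
    have h3 := coord_const (isChain_cons_cons.mp hc).2 hnotin hlast
    rw [hadj.2] at h3
    simp only [Pi.add_apply] at h3
    rw [he₀, Pi.single_eq_same] at h3
    have h4 : (1 : ZMod 2) = 0 := by
      have := h3
      rw [← sub_eq_zero] at this
      have h5 : p.2 s(p.1, q.1) - (p.2 s(p.1, q.1) + 1) = -1 := by ring
      rw [h5] at this
      simp at this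
    exact one_ne_zero h4

theorem noClosed_zero (G : SimpleGraph V) : NoClosed G 0 := by
  intro l _ _ h2 h1
  omega

/-- Every finite graph has finite covers of arbitrarily large girth. -/
theorem exists_cover {V : Type} [Finite V] (G : SimpleGraph V) (g : ℕ) :
    ∃ (V' : Type) (_ : Finite V') (H : SimpleGraph V') (p : V' → V), IsCover H G p ∧ NoClosed H g := by
  induction g with
  | zero => exact ⟨V, inferInstance, G, id, IsCover.id G, noClosed_zero G⟩
  | succ g ih =>
    obtain ⟨V', hf, H, p, hp, hn⟩ := ih
    classical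
    have : Finite (Sym2 V') := inferInstance
    refine ⟨V' × (Sym2 V' → ZMod 2), inferInstance, hcGraph H, p ∘ Prod.fst,
      (hcGraph_isCover H).comp hp, noClosed_hcGraph hn⟩

end Vale.Agent.Lib.P090
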