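import Mathlib

/-!
# The Lipschitz-free space of a pointed metric space and the bounded approximation property
-/

namespace Vale.Agent.Lib.P090

variable {M : Type*} [MetricSpace M]

/-- The vector space of Lipschitz functions `M → ℝ` vanishing at the base point `o`. -/
def lipZero (o : M) : Submodule ℝ (M → ℝ) where
  carrier := {f | f o = 0 ∧ ∃ K : ℝ, 0 ≤ K ∧ ∀ x y, |f x - f y| ≤ K * dist x y}
  add_mem' := by
    rintro f g ⟨hf, K, hK, hfK⟩ ⟨hg, L, hL, hgL⟩
    refine ⟨by simp [hf, hg], K + L, add_nonneg hK hL, fun x y => ?_⟩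
    have e : (f + g) x - (f + g) y = (f x - f y) + (g x - g y) := by
      simp only [Pi.add_apply]; ring
    rw [e, add_mul]
    exact (abs_add_le _ _).trans (add_le_add (hfK x y) (hgL x y))
  zero_mem' := ⟨rfl, 0, le_rfl, fun x y => by simp⟩
  smul_mem' := by
    rintro c f ⟨hf, K, hK, hfK⟩
    refine ⟨by simp [hf], |c| * K, mul_nonneg (abs_nonneg c) hK, fun x y => ?_⟩
    have e : (c • f) x - (c • f) y = c * (f x - f y) := by
      simp only [Pi.smul_apply, smul_eq_mul]; ring
    rw [e, abs_mul, mul_assoc]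
    exact mul_le_mul_of_nonneg_left (hfK x y) (abs_nonneg c)

/-- `Lip₀(M)`: the Lipschitz functions on `M` vanishing at the base point `o`. -/
def Lip0 (o : M) : Type _ := lipZero o

namespace Lip0

variable {o : M}

noncomputable instance : AddCommGroup (Lip0 o) := inferInstanceAs (AddCommGroup (lipZero o))

noncomputable instance : Module ℝ (Lip0 o) := inferInstanceAs (Module ℝ (lipZero o))

/-- The underlying function. -/
def toFun (f : Lip0 o) : M → ℝ := f.1

/-- The norm of `Lip₀(M)` is the best Lipschitz constant. -/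
noncomputable instance : Norm (Lip0 o) :=
  ⟨fun f => sInf {K : ℝ | 0 ≤ K ∧ ∀ x y, |f.toFun x - f.toFun y| ≤ K * dist x y}⟩

theorem norm_def (f : Lip0 o) :
    ‖f‖ = sInf {K : ℝ | 0 ≤ K ∧ ∀ x y, |f.toFun x - f.toFun y| ≤ K * dist x y} := rfl

theorem bdd (f : Lip0 o) :
    BddBelow {K : ℝ | 0 ≤ K ∧ ∀ x y, |f.toFun x - f.toFun y| ≤ K * dist x y} :=
  ⟨0, fun _ hK => hK.1⟩

theorem nonempty_const (f : Lip0 o) :
    {K : ℝ | 0 ≤ K ∧ ∀ x y, |f.toFun x - f.toFun y| ≤ K * dist x y}.Nonempty :=
  f.2.2

theorem norm_nonneg' (f : Lip0 o) : 0 ≤ ‖f‖ :=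
  le_csInf f.nonempty_const (fun _ hK => hK.1)

/-- The norm is a Lipschitz constant. -/
theorem abs_sub_le (f : Lip0 o) (x y : M) : |f.toFun x - f.toFun y| ≤ ‖f‖ * dist x y := by
  by_cases hxy : x = y
  · subst hxy; simp
  have hd : 0 < dist x y := dist_pos.mpr hxy
  rw [← div_le_iff₀ hd]
  apply le_csInf f.nonempty_const
  intro K hK
  rw [div_le_iff₀ hd]
  exact hK.2 x y

/-- Any Lipschitz constant bounds the norm. -/
theorem norm_le (f : Lip0 o) {K : ℝ} (hK : 0 ≤ K) (h : ∀ x y, |f.toFun x - f.toFun y| ≤ K * dist x y) :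
    ‖f‖ ≤ K :=
  csInf_le f.bdd ⟨hK, h⟩

@[simp] theorem toFun_add (f g : Lip0 o) (x : M) : (f + g).toFun x = f.toFun x + g.toFun x := rfl
@[simp] theorem toFun_smul (c : ℝ) (f : Lip0 o) (x : M) : (c • f).toFun x = c * f.toFun x := rfl
@[simp] theorem toFun_zero (x : M) : (0 : Lip0 o).toFun x = 0 := rfl

theorem toFun_base (f : Lip0 o) : f.toFun o = 0 := f.2.1

theorem ext' {f g : Lip0 o} (h : ∀ x, f.toFun x = g.toFun x) : f = g :=
  Subtype.ext (funext h)

theorem norm_smul_le' (c : ℝ) (f : Lip0 o) : ‖c • f‖ ≤ |c| * ‖f‖ := by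
  apply norm_le _ (mul_nonneg (abs_nonneg c) f.norm_nonneg')
  intro x y
  have e : (c • f).toFun x - (c • f).toFun y = c * (f.toFun x - f.toFun y) := by
    simp only [toFun_smul]; ring
  rw [e, abs_mul, mul_assoc]
  exact mul_le_mul_of_nonneg_left (f.abs_sub_le x y) (abs_nonneg c)

/-- `Lip₀(M)` with the norm above is a normed space. -/
theorem core : NormedSpace.Core ℝ (Lip0 o) where
  norm_nonneg := norm_nonneg'
  norm_smul c f := by
    rw [Real.norm_eq_abs]
    apply le_antisymm (norm_smul_le' c f)
    by_cases hc : c = 0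
    · subst hc; simp [norm_nonneg']
    have h1 := norm_smul_le' c⁻¹ (c • f)
    rw [smul_smul, inv_mul_cancel₀ hc, one_smul, abs_inv] at h1
    have hc' : 0 < |c| := abs_pos.mpr hc
    rw [inv_mul_eq_div, le_div_iff₀ hc'] at h1
    linarith
  norm_triangle f g := by
    apply norm_le _ (add_nonneg f.norm_nonneg' g.norm_nonneg')
    intro x y
    have e : (f + g).toFun x - (f + g).toFun y =
        (f.toFun x - f.toFun y) + (g.toFun x - g.toFun y) := by
      simp only [toFun_add]; ring
    rw [e, add_mul]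
    exact (abs_add_le _ _).trans (add_le_add (f.abs_sub_le x y) (g.abs_sub_le x y))
  norm_eq_zero_iff f := by
    constructor
    · intro h
      apply ext'
      intro x
      have := f.abs_sub_le x o
      rw [h, zero_mul, toFun_base, sub_zero] at this
      simpa using this
    · rintro rfl
      apply le_antisymm _ (norm_nonneg' _)
      apply norm_le _ le_rfl
      intro x y
      simp

noncomputable instance : NormedAddCommGroup (Lip0 o) := NormedAddCommGroup.ofCore core

noncomputable instance : NormedSpace ℝ (Lip0 o) := NormedSpace.ofCore core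

end Lip0

/-- The evaluation functional `δ_x` on `Lip₀(M)`. -/
noncomputable def delta (o x : M) : StrongDual ℝ (Lip0 o) :=
  LinearMap.mkContinuous
    { toFun := fun f => f.toFun x
      map_add' := fun _ _ => rfl
      map_smul' := fun _ _ => rfl }
    (dist x o)
    (fun f => by
      have := f.abs_sub_le x o
      rw [Lip0.toFun_base, sub_zero] at this
      rw [Real.norm_eq_abs, mul_comm]
      exact this)

/-- The Lipschitz-free space: the closed linear span of the evaluations in the dual of `Lip₀(M)`. -/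
noncomputable def Free (o : M) : Submodule ℝ (StrongDual ℝ (Lip0 o)) :=
  (Submodule.span ℝ (Set.range (delta o))).topologicalClosure

/-- The bounded approximation property of a real normed space: there is a constant `lam` such that
for each compact set `C` and each `ε > 0` there is a bounded operator of finite rank and norm at
most `lam` which moves each point of `C` by less than `ε`. -/
def HasBAP (X : Type*) [NormedAddCommGroup X] [NormedSpace ℝ X] : Prop :=
  ∃ lam : ℝ, ∀ C : Set X, IsCompact C → ∀ ε : ℝ, 0 < ε →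
    ∃ T : X →L[ℝ] X, FiniteDimensional ℝ (LinearMap.range T.toLinearMap) ∧ ‖T‖ ≤ lam ∧
      ∀ u ∈ C, ‖T u - u‖ < ε

end Vale.Agent.Lib.P090
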