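import Vale.Agent.Lib.P090.Walks

/-!
# Orienting a graph without long reduced walks so that each vertex has at most one parent
-/

set_option linter.unusedSectionVars false
set_option linter.unusedVariables false

namespace Vale.Agent.Lib.P090

variable {P : Type*}

theorem exists_leaf (GG : SimpleGraph P) (S : Finset P) (hne : S.Nonempty) (L : ℕ)
    (h : ∀ l : List P, l.IsChain GG.Adj → NoBack l → (∀ x ∈ l, x ∈ S) → l.length ≠ L + 1) :
    ∃ x ∈ S, ∀ y ∈ S, ∀ z ∈ S, GG.Adj x y → GG.Adj x z → y = z := by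
  by_contra hc
  push Not at hc
  have key : ∀ n : ℕ, ∃ (a : P) (t : List P), (a :: t).IsChain GG.Adj ∧ NoBack (a :: t) ∧
      (∀ x ∈ a :: t, x ∈ S) ∧ t.length = n := by
    intro n
    induction n with
    | zero =>
      obtain ⟨x, hx⟩ := hne
      exact ⟨x, [], by simp, by simp, by simpa using hx, rfl⟩
    | succ n ih =>
      obtain ⟨a, t, h1, h2, h3, h4⟩ := ih
      obtain ⟨y, hy, z, hz, hay, haz, hyz⟩ := hc a (h3 a (by simp))
      cases t with
      | nil =>
        refine ⟨y, [a], ?_, by simp, ?_, by simp at h4 ⊢; omega⟩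
        · rw [List.isChain_cons_cons]; exact ⟨hay.symm, by simp⟩
        · intro x hx
          simp only [List.mem_cons, List.not_mem_nil, or_false] at hx
          rcases hx with rfl | rfl
          · exact hy
          · exact h3 _ (by simp)
      | cons b t =>
        have hch : ∃ c ∈ S, GG.Adj a c ∧ c ≠ b := by
          by_cases hyb : y = b
          · exact ⟨z, hz, haz, fun e => hyz (hyb.trans e.symm)⟩
          · exact ⟨y, hy, hay, hyb⟩
        obtain ⟨c, hcS, hac, hcb⟩ := hch
        refine ⟨c, a :: b :: t, ?_, ?_, ?_, by simpa using h4⟩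
        · rw [List.isChain_cons_cons]; exact ⟨hac.symm, h1⟩
        · exact ⟨hcb, h2⟩
        · intro x hx
          rw [List.mem_cons] at hx
          rcases hx with rfl | hx
          · exact hcS
          · exact h3 x hx
  obtain ⟨a, t, h1, h2, h3, h4⟩ := key L
  exact h _ h1 h2 h3 (by simp [h4])

theorem exists_orientation (GG : SimpleGraph P) (S : Finset P) (L : ℕ)
    (h : ∀ l : List P, l.IsChain GG.Adj → NoBack l → (∀ x ∈ l, x ∈ S) → l.length ≠ L + 1) :
    ∃ Pa : P → P → Prop, (∀ p q, Pa p q → GG.Adj p q) ∧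
      (∀ p q₁ q₂, Pa p q₁ → Pa p q₂ → q₁ = q₂) ∧
      (∀ p ∈ S, ∀ q ∈ S, GG.Adj p q → Pa p q ∨ Pa q p) := by
  classical
  induction S using Finset.strongInduction with
  | H S ih =>
    rcases S.eq_empty_or_nonempty with rfl | hne
    · exact ⟨fun _ _ => False, fun _ _ h => h.elim, fun _ _ _ h => h.elim, fun p hp => by simp at hp⟩
    · obtain ⟨x, hxS, hleaf⟩ := exists_leaf GG S hne L h
      obtain ⟨Pa, h1, h2, h3⟩ := ih (S.erase x) (Finset.erase_ssubset hxS)
        (fun l hc hn hmem => h l hc hn (fun y hy => Finset.mem_of_mem_erase (hmem y hy)))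
      refine ⟨fun p q => (p ≠ x ∧ Pa p q) ∨ (p = x ∧ q ∈ S ∧ GG.Adj x q), ?_, ?_, ?_⟩
      · rintro p q (⟨_, hpq⟩ | ⟨rfl, _, hq⟩)
        · exact h1 _ _ hpq
        · exact hq
      · rintro p q₁ q₂ (⟨hp, h₁⟩ | ⟨rfl, h₁, h₁'⟩) (⟨hp', h₂⟩ | ⟨e, h₂, h₂'⟩)
        · exact h2 _ _ _ h₁ h₂
        · exact absurd e hp
        · exact absurd rfl hp'
        · exact hleaf _ h₁ _ h₂ h₁' h₂'
      · intro p hp q hq hpq
        by_cases hpx : p = x
        · subst hpx
          exact Or.inl (Or.inr ⟨rfl, hq, hpq⟩)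
        · by_cases hqx : q = x
          · subst hqx
            exact Or.inr (Or.inr ⟨rfl, hp, hpq.symm⟩)
          · rcases h3 p (Finset.mem_erase.mpr ⟨hpx, hp⟩) q (Finset.mem_erase.mpr ⟨hqx, hq⟩) hpq with
              h' | h'
            · exact Or.inl (Or.inl ⟨hpx, h'⟩)
            · exact Or.inr (Or.inl ⟨hqx, h'⟩)

end Vale.Agent.Lib.P090
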