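import Vale.Agent.Lib.P090.Sheet
import Vale.Agent.Lib.P090.Orient

/-!
# A bounded uniformly discrete metric space made of sheets over a graph of large girth
-/

set_option linter.unusedSectionVars false
set_option linter.unusedVariables false

namespace Vale.Agent.Lib.P090

open Finset

/-! ### The integer metric attached to a coloured graph -/

section Metric

variable {F N : Type} (Q : SimpleGraph F) (G : SimpleGraph N) (c : N → F) (r T : ℕ)

/-- The metric: the minimum of the graph distance of `G` and `2 r` plus the truncated distance of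
the colours. -/
noncomputable def dN (p q : N) : ℕ :=
  (min (G.edist p q) ((2 * r + dhat Q T (c p) (c q) : ℕ) : ℕ∞)).toNat

variable {Q G c r T}

theorem coe_dN (p q : N) : ((dN Q G c r T p q : ℕ) : ℕ∞) =
    min (G.edist p q) ((2 * r + dhat Q T (c p) (c q) : ℕ) : ℕ∞) := by
  unfold dN
  apply ENat.natCast_toNat
  exact ne_top_of_le_ne_top (ENat.natCast_ne_top _) (min_le_right _ _)

theorem dN_le_iff {p q : N} {k : ℕ} : dN Q G c r T p q ≤ k ↔
    (G.edist p q ≤ (k : ℕ∞) ∨ 2 * r + dhat Q T (c p) (c q) ≤ k) := by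
  have h : dN Q G c r T p q ≤ k ↔ ((dN Q G c r T p q : ℕ) : ℕ∞) ≤ (k : ℕ∞) := by norm_cast
  rw [h, coe_dN, min_le_iff]
  constructor
  · rintro (h | h)
    · exact Or.inl h
    · right; exact_mod_cast h
  · rintro (h | h)
    · exact Or.inl h
    · right; exact_mod_cast h

theorem dN_comm (p q : N) : dN Q G c r T p q = dN Q G c r T q p := by
  unfold dN
  rw [SimpleGraph.edist_comm, dhat_comm]

@[simp] theorem dN_self (p : N) : dN Q G c r T p p = 0 := by
  simp [dN]

theorem dhat_le_of_edist_le (hom : ∀ p q, G.Adj p q → Q.Adj (c p) (c q)) {p q : N} {k : ℕ}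
    (h : G.edist p q ≤ (k : ℕ∞)) : dhat Q T (c p) (c q) ≤ k := by
  have h1 : ((dhat Q T (c p) (c q) : ℕ) : ℕ∞) ≤ (k : ℕ∞) := by
    rw [coe_dhat]
    exact (min_le_left _ _).trans ((edist_color_le hom p q).trans h)
  exact_mod_cast h1

theorem dN_triangle (hom : ∀ p q, G.Adj p q → Q.Adj (c p) (c q)) (p q s : N) :
    dN Q G c r T p s ≤ dN Q G c r T p q + dN Q G c r T q s := by
  rw [dN_le_iff]
  have h1 := (dN_le_iff (Q := Q) (G := G) (c := c) (r := r) (T := T) (p := p) (q := q)).mp le_rfl
  have h2 := (dN_le_iff (Q := Q) (G := G) (c := c) (r := r) (T := T) (p := q) (q := s)).mp le_rfl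
  have htri := dhat_triangle (Q := Q) (T := T) (c p) (c q) (c s)
  rcases h1 with h1 | h1 <;> rcases h2 with h2 | h2
  · left
    calc G.edist p s ≤ G.edist p q + G.edist q s := SimpleGraph.edist_triangle
      _ ≤ _ := by push_cast; gcongr
  · right
    have := dhat_le_of_edist_le (T := T) hom h1
    omega
  · right
    have := dhat_le_of_edist_le (T := T) hom h2
    omega
  · right
    omega

theorem eq_of_dN_eq_zero (hr : 0 < r) {p q : N} (h : dN Q G c r T p q = 0) : p = q := by
  have := (dN_le_iff (Q := Q) (G := G) (c := c) (r := r) (T := T) (p := p) (q := q) (k := 0)).mp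
    (by omega)
  rcases this with h | h
  · have : G.edist p q = 0 := by simpa using h
    exact SimpleGraph.edist_eq_zero_iff.mp this
  · omega

/-- The metric space structure. -/
@[reducible] noncomputable def dNMetric (hom : ∀ p q, G.Adj p q → Q.Adj (c p) (c q)) (hr : 0 < r) :
    MetricSpace N where
  dist p q := (dN Q G c r T p q : ℝ)
  dist_self p := by simp
  dist_comm p q := by rw [dN_comm]
  dist_triangle p q s := by
    exact_mod_cast dN_triangle hom p q s
  eq_of_dist_eq_zero := by
    intro p q h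
    exact eq_of_dN_eq_zero hr (by exact_mod_cast h)

end Metric

/-! ### The sheets -/

/-- A finite coloured graph. -/
structure Sheet (F : Type) : Type 1 where
  V : Type
  fin : Fintype V
  G : SimpleGraph V
  c : V → F

instance {F : Type} (S : Sheet F) : Fintype S.V := S.fin

/-- The properties required of a sheet. -/
structure Sheet.Good {F : Type} (S : Sheet F) (Q : SimpleGraph F) (d₀ : ℕ)
    (Wd : ℕ → Finset (List F)) : Prop where
  ne : Nonempty S.V
  hom : ∀ u v, S.G.Adj u v → Q.Adj (S.c u) (S.c v)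
  loc : ∀ u v₁ v₂, S.G.Adj u v₁ → S.G.Adj u v₂ → S.c v₁ = S.c v₂ → v₁ = v₂
  deg : ∀ u, (nbrs S.G u).card ≤ 8 * d₀
  many : ((3 : ℝ) * d₀ - 9) * Fintype.card S.V ≤ 4 * ∑ u, ((nbrs S.G u).card : ℝ)
  avoid : ∃ L, 1 ≤ L ∧ ∀ l : List S.V, l.IsChain S.G.Adj → NoBack l → l.length = L + 1 →
    l.map S.c ∉ Wd L

/-- The base data of a piece. -/
structure Base where
  F : Type
  fin : Fintype F
  ne : Nonempty F
  Q : SimpleGraph F
  d₀ : ℕ
  pos : 0 < d₀
  reg : ∀ a, @Finset.card F (@nbrs F fin Q a) = 16 * d₀ ^ 2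
  r : ℕ
  rpos : 0 < r
  girth : NoClosed Q (2 * (8 * d₀ * r + r + 2) + 3)

namespace Base

variable (B : Base)

instance : Fintype B.F := B.fin
instance : Nonempty B.F := B.ne

/-- A family of colour words, with an exponential bound on their number. -/
structure WordState where
  Wd : ℕ → Finset (List B.F)
  C : ℕ
  bound : ∀ L, (Wd L).card ≤ C * (8 * B.d₀) ^ L

theorem exists_good (st : B.WordState) : ∃ S : Sheet B.F, S.Good B.Q B.d₀ st.Wd := by
  obtain ⟨V, i, X, c, h1, h2, h3, h4, h5, h6⟩ :=
    exists_sheet B.Q B.d₀ (16 * B.d₀ ^ 2) B.pos rfl B.reg st.Wd st.C st.bound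
  exact ⟨⟨V, i, X, c⟩, ⟨h1, h2, h3, h4, h5, h6⟩⟩

/-- The sheet chosen for a given family of words. -/
noncomputable def sheetOf (st : B.WordState) : Sheet B.F := Classical.choose (B.exists_good st)

theorem sheetOf_good (st : B.WordState) : (B.sheetOf st).Good B.Q B.d₀ st.Wd :=
  Classical.choose_spec (B.exists_good st)

open Classical in
/-- Add the words of the chosen sheet. -/
noncomputable def next (st : B.WordState) : B.WordState where
  Wd L := st.Wd L ∪ (walkSet (B.sheetOf st).G L).image (List.map (B.sheetOf st).c)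
  C := st.C + Fintype.card (B.sheetOf st).V
  bound L := by
    refine (Finset.card_union_le _ _).trans ?_
    rw [add_mul]
    exact add_le_add (st.bound L)
      (Finset.card_image_le.trans (card_walkSet_le _ _ (B.sheetOf_good st).deg L))

/-- The sequence of word families. -/
noncomputable def stN : ℕ → B.WordState
  | 0 => ⟨fun _ => ∅, 0, fun L => by simp⟩
  | n + 1 => B.next (stN n)

/-- The sequence of sheets. -/
noncomputable def Sh (n : ℕ) : Sheet B.F := B.sheetOf (B.stN n)

theorem Sh_good (n : ℕ) : (B.Sh n).Good B.Q B.d₀ (B.stN n).Wd := B.sheetOf_good _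

/-- Later word families contain the words of earlier sheets. -/
theorem word_mem {k n : ℕ} (hkn : k < n) {L : ℕ} {l : List (B.Sh k).V}
    (hc : l.IsChain (B.Sh k).G.Adj) (hlen : l.length = L + 1) :
    l.map (B.Sh k).c ∈ (B.stN n).Wd L := by
  classical
  induction n with
  | zero => omega
  | succ n ih =>
    show _ ∈ (B.next (B.stN n)).Wd L
    unfold next
    simp only [mem_union]
    rcases Nat.lt_succ_iff_lt_or_eq.mp hkn with h | h
    · exact Or.inl (ih h)
    · subst h
      right
      rw [mem_image]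
      exact ⟨l, mem_walkSet.mpr ⟨hlen, hc⟩, rfl⟩

/-- The points of the piece. -/
inductive N : Type
  | sec (a : B.F) : N
  | pt (n : ℕ) (u : (B.Sh n).V) : N

/-- Adjacency in the piece: inside a sheet. -/
inductive NAdj : B.N → B.N → Prop
  | mk (n : ℕ) (a b : (B.Sh n).V) (h : (B.Sh n).G.Adj a b) : NAdj (.pt n a) (.pt n b)

/-- The graph on the piece. -/
def Gr : SimpleGraph B.N where
  Adj := B.NAdj
  symm := ⟨by
    rintro _ _ ⟨n, a, b, h⟩
    exact NAdj.mk n b a h.symm⟩
  loopless := ⟨by
    intro p h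
    cases h with
    | mk n a b h' => exact h'.ne rfl⟩

/-- The colour of a point. -/
noncomputable def col : B.N → B.F
  | .sec a => a
  | .pt n u => (B.Sh n).c u

/-- The level of a point: the section has level `0` and the sheet `n` has level `n + 1`. -/
def lev : B.N → ℕ
  | .sec _ => 0
  | .pt n _ => n + 1

theorem col_hom (p q : B.N) (h : B.Gr.Adj p q) : B.Q.Adj (B.col p) (B.col q) := by
  cases h with
  | mk n a b h' => exact (B.Sh_good n).hom _ _ h'

theorem col_loc (p q₁ q₂ : B.N) (h₁ : B.Gr.Adj p q₁) (h₂ : B.Gr.Adj p q₂)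
    (e : B.col q₁ = B.col q₂) : q₁ = q₂ := by
  cases h₁ with
  | mk n a b h' =>
    cases h₂ with
    | mk n a c h'' =>
      have := (B.Sh_good n).loc _ _ _ h' h'' e
      rw [this]

theorem lev_adj {p q : B.N} (h : B.Gr.Adj p q) : B.lev q = B.lev p := by
  cases h with
  | mk n a b h' => rfl

/-- The truncation parameter. -/
def T : ℕ := 8 * B.d₀ * B.r

noncomputable instance metric : MetricSpace B.N :=
  dNMetric (Q := B.Q) (G := B.Gr) (c := B.col) (r := B.r) (T := B.T) B.col_hom B.rpos

theorem dist_eq (p q : B.N) : dist p q = (dN B.Q B.Gr B.col B.r B.T p q : ℝ) := rfl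

theorem one_le_dist {p q : B.N} (h : p ≠ q) : 1 ≤ dist p q := by
  rw [dist_eq]
  have : 1 ≤ dN B.Q B.Gr B.col B.r B.T p q := by
    by_contra hc
    have : dN B.Q B.Gr B.col B.r B.T p q = 0 := by omega
    exact h (eq_of_dN_eq_zero B.rpos this)
  exact_mod_cast this

theorem dist_le (p q : B.N) : dist p q ≤ 2 * B.r + B.T := by
  rw [dist_eq]
  have : dN B.Q B.Gr B.col B.r B.T p q ≤ 2 * B.r + B.T := by
    rw [dN_le_iff]
    right
    have := dhat_le (Q := B.Q) (T := B.T) (B.col p) (B.col q)
    omega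
  exact_mod_cast this

theorem dist_adj_le {p q : B.N} (h : B.Gr.Adj p q) : dist p q ≤ 1 := by
  rw [dist_eq]
  have : dN B.Q B.Gr B.col B.r B.T p q ≤ 1 := by
    rw [dN_le_iff]
    left
    rw [SimpleGraph.edist_eq_one_iff_adj.mpr h]
    simp
  exact_mod_cast this

theorem dist_section_le (p : B.N) : dist p (N.sec (B.col p)) ≤ 2 * B.r := by
  rw [dist_eq]
  have : dN B.Q B.Gr B.col B.r B.T p (N.sec (B.col p)) ≤ 2 * B.r := by
    rw [dN_le_iff]
    right
    show 2 * B.r + dhat B.Q B.T (B.col p) (B.col p) ≤ _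
    simp
  exact_mod_cast this

theorem dist_walk (p q : B.N) (h : dist p q < (B.r : ℝ)) : B.Gr.edist p q < (B.r : ℕ∞) := by
  rw [dist_eq] at h
  have h1 : dN B.Q B.Gr B.col B.r B.T p q < B.r := by exact_mod_cast h
  have h2 := coe_dN (Q := B.Q) (G := B.Gr) (c := B.col) (r := B.r) (T := B.T) p q
  have h3 : ((dN B.Q B.Gr B.col B.r B.T p q : ℕ) : ℕ∞) < (B.r : ℕ∞) := by exact_mod_cast h1
  rw [h2, min_lt_iff] at h3
  rcases h3 with h3 | h3
  · exact h3
  · exfalso
    have : 2 * B.r + dhat B.Q B.T (B.col p) (B.col q) < B.r := by exact_mod_cast h3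
    omega

theorem dist_color (p q : B.N) : ((dhat B.Q B.T (B.col p) (B.col q) : ℕ) : ℝ) ≤ dist p q := by
  rw [dist_eq]
  have h1 := (dN_le_iff (Q := B.Q) (G := B.Gr) (c := B.col) (r := B.r) (T := B.T) (p := p) (q := q)
    (k := dN B.Q B.Gr B.col B.r B.T p q)).mp le_rfl
  have : dhat B.Q B.T (B.col p) (B.col q) ≤ dN B.Q B.Gr B.col B.r B.T p q := by
    rcases h1 with h1 | h1
    · exact dhat_le_of_edist_le B.col_hom h1
    · omega
  exact_mod_cast this

/-- The points of level at most `n` form a finite set. -/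
theorem finite_lev (n : ℕ) : {p : B.N | B.lev p ≤ n}.Finite := by
  have hsub : {p : B.N | B.lev p ≤ n} ⊆ Set.range (N.sec : B.F → B.N) ∪
      ⋃ k ∈ Finset.range n, Set.range (fun a : (B.Sh k).V => (N.pt k a : B.N)) := by
    rintro (a | ⟨k, a⟩) h
    · left; exact ⟨a, rfl⟩
    · right
      have : k + 1 ≤ n := h
      simp only [Set.mem_iUnion]
      exact ⟨k, Finset.mem_range.mpr (by omega), a, rfl⟩
  refine Set.Finite.subset ?_ hsub
  refine Set.Finite.union (Set.finite_range _) ?_
  refine Set.Finite.biUnion (Finset.finite_toSet _) ?_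
  intro k _
  exact Set.finite_range _

/-- Walks of at least two vertices in the piece live in one sheet. -/
theorem chain_in_sheet : ∀ {t : List B.N} {a : B.N}, (a :: t).IsChain B.Gr.Adj → t ≠ [] →
    ∃ (k : ℕ) (l : List (B.Sh k).V), a :: t = l.map (fun u => (N.pt k u : B.N)) ∧
      l.IsChain (B.Sh k).G.Adj := by
  intro t
  induction t with
  | nil => intro a _ h; exact absurd rfl h
  | cons b t ih =>
    intro a hc _
    rw [List.isChain_cons_cons] at hc
    obtain ⟨hab, hbt⟩ := hc
    cases t with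
    | nil =>
      cases hab with
      | mk n x y h' =>
        exact ⟨n, [x, y], rfl, by rw [List.isChain_cons_cons]; exact ⟨h', by simp⟩⟩
    | cons z t =>
      obtain ⟨k, l, e, hl⟩ := ih hbt (by simp)
      cases l with
      | nil => simp at e
      | cons y l =>
        have e1 : b = N.pt k y := by
          simp only [List.map_cons] at e
          exact (List.cons.inj e).1
        subst e1
        cases hab with
        | mk _ x _ h' =>
          refine ⟨k, x :: y :: l, ?_, ?_⟩
          · rw [List.map_cons, e]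
          · rw [List.isChain_cons_cons]; exact ⟨h', hl⟩

end Base

end Vale.Agent.Lib.P090
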