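import Mathlib
import Vale.Agent.Lib.P090.Bap

/-! Reduction of the BAP question for uniformly discrete spaces to a uniform bound on bounded ones. -/

open scoped NNReal

universe u

namespace Vale.Agent.Lib.P090.Bdd

section cutoff

variable {M : Type u} [MetricSpace M] (o : M)

/-- If all bounded uniformly discrete spaces have the `c`-BAP, so does every uniformly discrete
space, with constant `3 c`. -/
theorem hasBAP_of_balls {c : ℝ} (hc : 0 ≤ c)
    (hball : ∀ (r : ℝ) (hr : 0 < r), HasBAP c (FreeSpace {x : M // dist x o ≤ r} ⟨o, by simpa using hr.le⟩)) :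
    HasBAP (3 * c) (FreeSpace M o) := by
  classical
  apply hasBAP_of_family (delta o) (dense_span_delta o) (by positivity)
  intro N η hη
  set ρ : ℝ := 1 + ∑ u ∈ N, dist u o with hρdef
  have hρ : 0 < ρ := by
    have : 0 ≤ ∑ u ∈ N, dist u o := Finset.sum_nonneg fun _ _ => dist_nonneg
    linarith
  have hNρ : ∀ u ∈ N, dist u o ≤ ρ := by
    intro u hu
    have : dist u o ≤ ∑ u ∈ N, dist u o :=
      Finset.single_le_sum (f := fun u => dist u o) (fun _ _ => dist_nonneg) hu
    linarith
  have hr : 0 < 4 * ρ := by positivity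
  have hBo : dist o o ≤ 4 * ρ := by simpa using hr.le
  let B := {x : M // dist x o ≤ 4 * ρ}
  let o' : B := ⟨o, hBo⟩
  have hB : HasBAP c (FreeSpace B o') := hball (4 * ρ) hr
  -- the inclusion
  let ι₀ : B → FreeSpace M o := fun b => delta o b.1
  have hι₀ : LipschitzWith 1 ι₀ := LipschitzWith.of_dist_le_mul fun x y => by
    rw [dist_eq_norm, NNReal.coe_one, one_mul]
    exact norm_delta_sub_le o x.1 y.1
  have hι₀o : ι₀ o' = 0 := delta_base o
  obtain ⟨I, hIn, hIδ⟩ := exists_linearization o' ι₀ 1 hι₀ hι₀o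
  have hIn' : ‖I‖ ≤ 1 := by simpa using hIn
  -- the finite set to approximate
  set C : Set (FreeSpace B o') := delta o' '' (Subtype.val ⁻¹' (N : Set M)) with hC
  have hCfin : C.Finite := by
    apply Set.Finite.image
    exact Set.Finite.preimage Subtype.val_injective.injOn N.finite_toSet
  obtain ⟨S, hSfin, hSn, hSC⟩ := hB C hCfin.isCompact η hη
  have hIS : ∀ z, ‖I (S z)‖ ≤ c * ‖z‖ := by
    intro z
    calc ‖I (S z)‖ ≤ ‖I‖ * ‖S z‖ := I.le_opNorm _
      _ ≤ 1 * ‖S z‖ := mul_le_mul_of_nonneg_right hIn' (norm_nonneg _)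
      _ = ‖S z‖ := one_mul _
      _ ≤ ‖S‖ * ‖z‖ := S.le_opNorm _
      _ ≤ c * ‖z‖ := mul_le_mul_of_nonneg_right hSn (norm_nonneg _)
  -- cut-off
  set w : M → ℝ := fun x => max 0 (min 1 (2 - dist x o / (2 * ρ))) with hw
  have hw0 : ∀ x, 0 ≤ w x := fun x => le_max_left _ _
  have hw1 : ∀ x, w x ≤ 1 := fun x => max_le zero_le_one (min_le_left _ _)
  have hwl : ∀ x y, |w x - w y| ≤ dist x y / (2 * ρ) := by
    intro x y
    have h1 : |dist x o / (2 * ρ) - dist y o / (2 * ρ)| ≤ dist x y / (2 * ρ) := by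
      rw [← sub_div, abs_div, abs_of_pos (by positivity : 0 < 2 * ρ)]
      apply div_le_div_of_nonneg_right _ (by positivity)
      exact abs_dist_sub_le x y o
    have h2 : |min 1 (2 - dist x o / (2 * ρ)) - min 1 (2 - dist y o / (2 * ρ))|
        ≤ |(2 - dist x o / (2 * ρ)) - (2 - dist y o / (2 * ρ))| := by
      have := abs_min_sub_min_le_max (1 : ℝ) (2 - dist x o / (2 * ρ)) 1 (2 - dist y o / (2 * ρ))
      simpa using this
    have h3 : |(2 - dist x o / (2 * ρ)) - (2 - dist y o / (2 * ρ))|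
        = |dist x o / (2 * ρ) - dist y o / (2 * ρ)| := by
      rw [abs_sub_comm]; congr 1; ring
    have h4 : |w x - w y| ≤ |min 1 (2 - dist x o / (2 * ρ)) - min 1 (2 - dist y o / (2 * ρ))| := by
      have := abs_max_sub_max_le_max (0 : ℝ) (min 1 (2 - dist x o / (2 * ρ))) 0 (min 1 (2 - dist y o / (2 * ρ)))
      simpa [hw] using this
    linarith
  have hwout : ∀ x, ¬ dist x o ≤ 4 * ρ → w x = 0 := by
    intro x hx
    have h1 : 2 - dist x o / (2 * ρ) < 0 := by
      have : 2 < dist x o / (2 * ρ) := by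
        rw [lt_div_iff₀ (by positivity)]
        push Not at hx
        linarith
      linarith
    have h2 : min 1 (2 - dist x o / (2 * ρ)) ≤ 0 := (min_le_right _ _).trans h1.le
    exact max_eq_left h2
  have hwin : ∀ x, dist x o ≤ ρ → w x = 1 := by
    intro x hx
    have h1 : dist x o / (2 * ρ) ≤ 1 := by
      rw [div_le_one (by positivity)]
      linarith
    have h2 : min 1 (2 - dist x o / (2 * ρ)) = 1 := min_eq_left (by linarith)
    simp only [hw, h2]
    exact max_eq_right zero_le_one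
  -- the values
  set v : M → FreeSpace M o := fun x =>
    if h : dist x o ≤ 4 * ρ then I (S (delta o' ⟨x, h⟩)) else 0 with hv
  have hvin : ∀ x (h : dist x o ≤ 4 * ρ), v x = I (S (delta o' ⟨x, h⟩)) := by
    intro x h
    simp only [hv, dif_pos h]
  have hvout : ∀ x, ¬ dist x o ≤ 4 * ρ → v x = 0 := by
    intro x h
    simp only [hv, dif_neg h]
  have hvb : ∀ x, ‖v x‖ ≤ c * (4 * ρ) := by
    intro x
    by_cases h : dist x o ≤ 4 * ρ
    · rw [hvin x h]
      calc _ ≤ c * ‖delta o' (⟨x, h⟩ : B)‖ := hIS _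
        _ ≤ c * dist (⟨x, h⟩ : B) o' := mul_le_mul_of_nonneg_left (norm_delta_le o' _) hc
        _ ≤ c * (4 * ρ) := mul_le_mul_of_nonneg_left h hc
    · rw [hvout x h, norm_zero]
      positivity
  have hvd : ∀ x y (hx : dist x o ≤ 4 * ρ) (hy : dist y o ≤ 4 * ρ), ‖v x - v y‖ ≤ c * dist x y := by
    intro x y hx hy
    rw [hvin x hx, hvin y hy, ← map_sub, ← map_sub]
    calc _ ≤ c * ‖delta o' (⟨x, hx⟩ : B) - delta o' (⟨y, hy⟩ : B)‖ := hIS _
      _ ≤ c * dist (⟨x, hx⟩ : B) ⟨y, hy⟩ := mul_le_mul_of_nonneg_left (norm_delta_sub_le o' _ _) hc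
      _ = c * dist x y := rfl
  set φ : M → FreeSpace M o := fun x => w x • v x with hφ
  have hslope : ∀ x y, |w x - w y| * ‖v x‖ ≤ 2 * c * dist x y := by
    intro x y
    calc |w x - w y| * ‖v x‖ ≤ (dist x y / (2 * ρ)) * (c * (4 * ρ)) :=
          mul_le_mul (hwl x y) (hvb x) (norm_nonneg _) (by positivity)
      _ = 2 * c * dist x y := by field_simp; ring
  have hφL : ∀ x y, dist (φ x) (φ y) ≤ (3 * c) * dist x y := by
    have hone : ∀ x y, ¬ dist y o ≤ 4 * ρ → dist (φ x) (φ y) ≤ (3 * c) * dist x y := by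
      intro x y hy
      rw [dist_eq_norm]
      have e : φ x - φ y = (w x - w y) • v x := by
        simp only [hφ, hwout y hy, zero_smul, sub_zero]
      rw [e, norm_smul, Real.norm_eq_abs]
      have := hslope x y
      have h0 : 0 ≤ c * dist x y := mul_nonneg hc dist_nonneg
      linarith
    intro x y
    by_cases hy : dist y o ≤ 4 * ρ
    · by_cases hx : dist x o ≤ 4 * ρ
      · rw [dist_eq_norm]
        have e : φ x - φ y = (w x - w y) • v x + w y • (v x - v y) := by
          simp only [hφ, smul_sub, sub_smul]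
          abel
        rw [e]
        calc ‖(w x - w y) • v x + w y • (v x - v y)‖
            ≤ ‖(w x - w y) • v x‖ + ‖w y • (v x - v y)‖ := norm_add_le _ _
          _ = |w x - w y| * ‖v x‖ + |w y| * ‖v x - v y‖ := by
              rw [norm_smul, norm_smul, Real.norm_eq_abs, Real.norm_eq_abs]
          _ ≤ 2 * c * dist x y + 1 * (c * dist x y) := by
              apply add_le_add (hslope x y)
              apply mul_le_mul _ (hvd x y hx hy) (norm_nonneg _) zero_le_one
              rw [abs_of_nonneg (hw0 y)]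
              exact hw1 y
          _ = _ := by ring
      · rw [dist_comm (φ x), dist_comm x]
        exact hone y x hx
    · exact hone x y hy
  let L : ℝ≥0 := ⟨3 * c, by positivity⟩
  have hLip : LipschitzWith L φ := LipschitzWith.of_dist_le_mul fun x y => hφL x y
  have hφo : φ o = 0 := by
    have : v o = 0 := by
      rw [hvin o hBo]
      have : delta o' (⟨o, hBo⟩ : B) = 0 := delta_base o'
      rw [this, map_zero, map_zero]
    simp only [hφ, this, smul_zero]
  obtain ⟨T, hTn, hTδ⟩ := exists_linearization o φ L hLip hφo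
  refine ⟨T, ?_, hTn, ?_⟩
  · -- finite rank
    set W : Submodule ℝ (FreeSpace M o) :=
      (LinearMap.range S.toLinearMap).map I.toLinearMap with hWdef
    haveI : FiniteDimensional ℝ W := by
      rw [hWdef]
      infer_instance
    apply finrank_of_delta_mem o W
    intro x
    rw [hTδ]
    apply W.smul_mem
    by_cases h : dist x o ≤ 4 * ρ
    · rw [hvin x h]
      exact ⟨S (delta o' ⟨x, h⟩), ⟨_, rfl⟩, rfl⟩
    · rw [hvout x h]
      exact W.zero_mem
  · intro u hu
    have hu1 := hNρ u hu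
    have hu2 : dist u o ≤ 4 * ρ := by linarith
    rw [hTδ]
    simp only [hφ, hwin u hu1, one_smul]
    rw [hvin u hu2]
    have e1 : delta o u = I (delta o' (⟨u, hu2⟩ : B)) := (hIδ (⟨u, hu2⟩ : B)).symm
    rw [e1, ← map_sub]
    have hmemC : delta o' (⟨u, hu2⟩ : B) ∈ C := ⟨⟨u, hu2⟩, by simpa using hu, rfl⟩
    have h2 := hSC _ hmemC
    calc _ ≤ ‖I‖ * ‖S (delta o' (⟨u, hu2⟩ : B)) - delta o' (⟨u, hu2⟩ : B)‖ := I.le_opNorm _
      _ ≤ 1 * η := mul_le_mul hIn' h2.le (norm_nonneg _) zero_le_one
      _ = η := one_mul _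

end cutoff

section wedge

variable {M : ℕ → Type u} [∀ k, MetricSpace (M k)] (o : ∀ k, M k) (s : ℕ → ℝ)

/-- The distance of a wedge of rescaled spaces. -/
noncomputable def wedgeDist : (Σ k, M k) → (Σ k, M k) → ℝ
  | ⟨i, x⟩, ⟨j, y⟩ =>
    if h : i = j then dist (h ▸ x) y / s j
    else dist x (o i) / s i + 1 + dist y (o j) / s j

lemma wedgeDist_same (i : ℕ) (x y : M i) : wedgeDist o s ⟨i, x⟩ ⟨i, y⟩ = dist x y / s i := by
  simp [wedgeDist]

lemma wedgeDist_ne {i j : ℕ} (h : i ≠ j) (x : M i) (y : M j) :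
    wedgeDist o s ⟨i, x⟩ ⟨j, y⟩ = dist x (o i) / s i + 1 + dist y (o j) / s j := by
  simp [wedgeDist, h]

variable (hs : ∀ k, 0 < s k)
include hs

/-- The wedge of the spaces `M k`, rescaled by `1 / s k`, with their base points at
distance `1` (plus the distance to the base points) from each other. -/
@[reducible] noncomputable def wedgeMetric : MetricSpace (Σ k, M k) where
  dist := wedgeDist o s
  dist_self := by
    rintro ⟨i, x⟩
    rw [wedgeDist_same]; simp
  dist_comm := by
    rintro ⟨i, x⟩ ⟨j, y⟩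
    by_cases h : i = j
    · subst h
      simp only [wedgeDist_same, dist_comm]
    · rw [wedgeDist_ne o s h, wedgeDist_ne o s (Ne.symm h)]
      ring
  dist_triangle := by
    rintro ⟨i, x⟩ ⟨j, y⟩ ⟨k, z⟩
    have hpos : ∀ (l : ℕ) (a : M l), 0 ≤ dist a (o l) / s l := fun l a =>
      div_nonneg dist_nonneg (hs l).le
    by_cases hij : i = j
    · subst hij
      by_cases hik : i = k
      · subst hik
        simp only [wedgeDist_same]
        rw [← add_div]
        exact div_le_div_of_nonneg_right (dist_triangle _ _ _) (hs i).le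
      · rw [wedgeDist_same, wedgeDist_ne o s hik, wedgeDist_ne o s hik]
        have : dist x (o i) / s i ≤ dist x y / s i + dist y (o i) / s i := by
          rw [← add_div]
          exact div_le_div_of_nonneg_right (dist_triangle _ _ _) (hs i).le
        linarith
    · by_cases hjk : j = k
      · subst hjk
        rw [wedgeDist_same, wedgeDist_ne o s hij, wedgeDist_ne o s hij]
        have : dist z (o j) / s j ≤ dist y z / s j + dist y (o j) / s j := by
          rw [← add_div]
          apply div_le_div_of_nonneg_right _ (hs j).le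
          calc dist z (o j) ≤ dist z y + dist y (o j) := dist_triangle _ _ _
            _ = _ := by rw [dist_comm z y]
        linarith
      · rw [wedgeDist_ne o s hij, wedgeDist_ne o s hjk]
        by_cases hik : i = k
        · subst hik
          rw [wedgeDist_same]
          have : dist x z / s i ≤ dist x (o i) / s i + dist z (o i) / s i := by
            rw [← add_div]
            apply div_le_div_of_nonneg_right _ (hs i).le
            calc dist x z ≤ dist x (o i) + dist (o i) z := dist_triangle _ _ _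
              _ = _ := by rw [dist_comm (o i) z]
          have h1 := hpos j y
          linarith
        · rw [wedgeDist_ne o s hik]
          have h1 := hpos j y
          linarith
  eq_of_dist_eq_zero := by
    rintro ⟨i, x⟩ ⟨j, y⟩ h
    by_cases hij : i = j
    · subst hij
      change wedgeDist o s ⟨i, x⟩ ⟨i, y⟩ = 0 at h
      rw [wedgeDist_same] at h
      have h2 : dist x y = 0 := by
        rcases div_eq_zero_iff.mp h with h3 | h3
        · exact h3
        · exact absurd h3 (hs i).ne'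
      rw [dist_eq_zero.mp h2]
    · exfalso
      change wedgeDist o s ⟨i, x⟩ ⟨j, y⟩ = 0 at h
      rw [wedgeDist_ne o s hij] at h
      have h1 : 0 ≤ dist x (o i) / s i := div_nonneg dist_nonneg (hs i).le
      have h2 : 0 ≤ dist y (o j) / s j := div_nonneg dist_nonneg (hs j).le
      linarith

end wedge

section retr

variable {M : ℕ → Type u} (o : ∀ k, M k)

/-- The retraction of the wedge onto a summand. -/
noncomputable def wedgeRetr (k : ℕ) : (Σ k, M k) → M k
  | ⟨j, y⟩ => if h : j = k then h ▸ y else o k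

lemma wedgeRetr_same (k : ℕ) (y : M k) : wedgeRetr o k ⟨k, y⟩ = y := by
  simp [wedgeRetr]

lemma wedgeRetr_ne {j k : ℕ} (h : j ≠ k) (y : M j) : wedgeRetr o k ⟨j, y⟩ = o k := by
  simp [wedgeRetr, h]

end retr

/-- **Transfer**: the free space of a wedge controls the free spaces of the summands. -/
theorem hasBAP_summand_of_wedge {M : ℕ → Type u} [∀ k, MetricSpace (M k)] (o : ∀ k, M k) (s : ℕ → ℝ)
    (hs : ∀ k, 0 < s k) {c : ℝ} (k : ℕ)
    (hW : letI := wedgeMetric o s hs
      HasBAP c (FreeSpace (Σ k, M k) (⟨0, o 0⟩ : Σ k, M k))) :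
    HasBAP c (FreeSpace (M k) (o k)) := by
  classical
  letI := wedgeMetric o s hs
  set b : Σ k, M k := ⟨0, o 0⟩ with hb
  have hdist : ∀ (p q : Σ k, M k), dist p q = wedgeDist o s p q := fun _ _ => rfl
  -- the retraction
  let r : (Σ k, M k) → M k := wedgeRetr o k
  have hrb : r b = o k := by
    by_cases h0 : (0 : ℕ) = k
    · subst h0
      exact wedgeRetr_same o 0 (o 0)
    · exact wedgeRetr_ne o h0 (o 0)
  have hrL : ∀ p q : Σ k, M k, dist (r p) (r q) ≤ s k * dist p q := by
    have hsk := hs k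
    have hpos : ∀ (l : ℕ) (a : M l), 0 ≤ dist a (o l) / s l := fun l a =>
      div_nonneg dist_nonneg (hs l).le
    have hone : ∀ (j : ℕ) (hj : j ≠ k) (x : M k) (y : M j),
        dist x (o k) ≤ s k * wedgeDist o s ⟨k, x⟩ ⟨j, y⟩ := by
      intro j hj x y
      rw [wedgeDist_ne o s (Ne.symm hj)]
      have h1 := hpos j y
      have h2 : s k * (dist x (o k) / s k) = dist x (o k) := by field_simp
      nlinarith
    rintro ⟨i, x⟩ ⟨j, y⟩
    rw [hdist]
    by_cases hi : i = k
    · subst hi
      by_cases hj : j = i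
      · subst hj
        simp only [r, wedgeRetr_same, wedgeDist_same]
        apply le_of_eq; field_simp
      · simp only [r, wedgeRetr_same, wedgeRetr_ne o hj]
        exact hone j hj x y
    · by_cases hj : j = k
      · subst hj
        simp only [r, wedgeRetr_same, wedgeRetr_ne o hi]
        rw [dist_comm]
        have : wedgeDist o s ⟨i, x⟩ ⟨j, y⟩ = wedgeDist o s ⟨j, y⟩ ⟨i, x⟩ := by
          rw [← hdist, ← hdist, dist_comm]
        rw [this]
        exact hone i hi y x
      · simp only [r, wedgeRetr_ne o hi, wedgeRetr_ne o hj, dist_self]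
        apply mul_nonneg hsk.le
        rw [← hdist]
        exact dist_nonneg
  let L₁ : ℝ≥0 := ⟨s k, (hs k).le⟩
  have hR0 : LipschitzWith L₁ (fun p => delta (o k) (r p)) :=
    LipschitzWith.of_dist_le_mul fun p q => by
      rw [dist_eq_norm]
      exact (norm_delta_sub_le (o k) _ _).trans (hrL p q)
  have hR0b : delta (o k) (r b) = 0 := by rw [hrb, delta_base]
  obtain ⟨R, hRn, hRδ⟩ := exists_linearization b _ L₁ hR0 hR0b
  -- the inclusion
  let ι₀ : M k → FreeSpace (Σ k, M k) b := fun x => delta b ⟨k, x⟩ - delta b ⟨k, o k⟩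
  let L₂ : ℝ≥0 := ⟨1 / s k, (div_pos one_pos (hs k)).le⟩
  have hι₀ : LipschitzWith L₂ ι₀ := LipschitzWith.of_dist_le_mul fun x y => by
    rw [dist_eq_norm]
    have e : ι₀ x - ι₀ y = delta b ⟨k, x⟩ - delta b ⟨k, y⟩ := by
      simp only [ι₀]; abel
    rw [e]
    have h1 := norm_delta_sub_le b (⟨k, x⟩ : Σ k, M k) ⟨k, y⟩
    rw [hdist, wedgeDist_same] at h1
    refine h1.trans (le_of_eq ?_)
    change dist x y / s k = 1 / s k * dist x y
    ring
  have hι₀o : ι₀ (o k) = 0 := sub_self _
  obtain ⟨I, hIn, hIδ⟩ := exists_linearization (o k) ι₀ L₂ hι₀ hι₀o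
  -- composition is the identity
  have hRI : R ∘L I = ContinuousLinearMap.id ℝ _ := by
    apply hom_ext (o k)
    intro x
    simp only [ContinuousLinearMap.comp_apply, ContinuousLinearMap.id_apply]
    rw [hIδ]
    simp only [ι₀, map_sub]
    rw [hRδ, hRδ]
    have e1 : r ⟨k, x⟩ = x := wedgeRetr_same o k x
    have e2 : r ⟨k, o k⟩ = o k := wedgeRetr_same o k (o k)
    rw [e1, e2, delta_base, sub_zero]
  have hsk := hs k
  intro C hC ε hε
  obtain ⟨T, hTfin, hTn, hTC⟩ := hW (I '' C) (hC.image I.continuous) (ε / s k) (div_pos hε hsk)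
  refine ⟨R ∘L T ∘L I, ?_, ?_, ?_⟩
  · have hle : LinearMap.range (R ∘L T ∘L I).toLinearMap ≤
        (LinearMap.range T.toLinearMap).map R.toLinearMap := by
      rintro _ ⟨u, rfl⟩
      exact ⟨T (I u), ⟨I u, rfl⟩, rfl⟩
    haveI : FiniteDimensional ℝ ((LinearMap.range T.toLinearMap).map R.toLinearMap) := inferInstance
    exact Submodule.finiteDimensional_of_le hle
  · have hc : 0 ≤ c := (norm_nonneg T).trans hTn
    calc ‖R ∘L T ∘L I‖ ≤ ‖R‖ * ‖T ∘L I‖ := ContinuousLinearMap.opNorm_comp_le _ _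
      _ ≤ ‖R‖ * (‖T‖ * ‖I‖) := mul_le_mul_of_nonneg_left (ContinuousLinearMap.opNorm_comp_le _ _) (norm_nonneg _)
      _ ≤ s k * (c * (1 / s k)) := by
          apply mul_le_mul hRn (mul_le_mul hTn hIn (norm_nonneg _) hc) (by positivity) hsk.le
      _ = c := by field_simp
  · intro u hu
    have h1 := hTC (I u) ⟨u, hu, rfl⟩
    have e : (R ∘L T ∘L I) u - u = R (T (I u) - I u) := by
      have h2 : R (I u) = u := by
        have := congrArg (fun A => A u) hRI
        simpa using this
      simp only [ContinuousLinearMap.comp_apply, map_sub, h2]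
    rw [e]
    calc ‖R (T (I u) - I u)‖ ≤ ‖R‖ * ‖T (I u) - I u‖ := R.le_opNorm _
      _ ≤ s k * ‖T (I u) - I u‖ := mul_le_mul_of_nonneg_right hRn (norm_nonneg _)
      _ < s k * (ε / s k) := mul_lt_mul_of_pos_left h1 hsk
      _ = ε := by field_simp

/-- **Reduction**: all uniformly discrete spaces have free spaces with the BAP iff the BAP holds
with a uniform constant for all bounded ones. -/
theorem forall_bap_iff :
    (∀ (M : Type u) [MetricSpace M] (o : M), (∃ s > 0, ∀ x y : M, x ≠ y → s ≤ dist x y) →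
      ∃ c, HasBAP c (FreeSpace M o)) ↔
    (∃ c, ∀ (M : Type u) [MetricSpace M] (o : M), (∃ s > 0, ∀ x y : M, x ≠ y → s ≤ dist x y) →
      (∃ R, ∀ x, dist x o ≤ R) → HasBAP c (FreeSpace M o)) := by
  constructor
  · intro hQ
    by_contra hcon
    push Not at hcon
    have hk : ∀ k : ℕ, ∃ (X : Type u) (_ : MetricSpace X) (x₀ : X), (∃ s > 0, ∀ x y : X, x ≠ y → s ≤ dist x y) ∧
        (∃ R, ∀ x, dist x x₀ ≤ R) ∧ ¬ HasBAP (k : ℝ) (FreeSpace X x₀) := by
      intro k
      obtain ⟨X, inst, x₀, h1, h2, h3⟩ := hcon (k : ℝ)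
      exact ⟨X, inst, x₀, h1, h2, h3⟩
    choose X inst x₀ hsepX _ hnot using hk
    choose s hspos hsep using hsepX
    letI wm : MetricSpace (Σ k, X k) := wedgeMetric x₀ s hspos
    have hdist : ∀ (p q : Σ k, X k), dist p q = wedgeDist x₀ s p q := fun _ _ => rfl
    have hUD : ∃ s' > 0, ∀ x y : (Σ k, X k), x ≠ y → s' ≤ dist x y := by
      refine ⟨1, one_pos, ?_⟩
      rintro ⟨i, x⟩ ⟨j, y⟩ hne
      rw [hdist]
      by_cases hij : i = j
      · subst hij
        rw [wedgeDist_same, le_div_iff₀ (hspos i), one_mul]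
        apply hsep i x y
        rintro rfl
        exact hne rfl
      · rw [wedgeDist_ne x₀ s hij]
        have h1 : 0 ≤ dist x (x₀ i) / s i := div_nonneg dist_nonneg (hspos i).le
        have h2 : 0 ≤ dist y (x₀ j) / s j := div_nonneg dist_nonneg (hspos j).le
        linarith
    obtain ⟨c, hc⟩ := hQ (Σ k, X k) (⟨0, x₀ 0⟩ : Σ k, X k) hUD
    obtain ⟨k, hk⟩ := exists_nat_ge c
    apply hnot k
    have h1 := hasBAP_summand_of_wedge x₀ s hspos k hc
    intro C hC ε hε
    obtain ⟨T, h2, h3, h4⟩ := h1 C hC ε hε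
    exact ⟨T, h2, h3.trans hk, h4⟩
  · rintro ⟨c, hc⟩ M _ o ⟨s, hs, hsep⟩
    have hball : ∀ (r : ℝ) (hr : 0 < r), HasBAP c (FreeSpace {x : M // dist x o ≤ r} ⟨o, by simpa using hr.le⟩) := by
      intro r hr
      apply hc
      · exact ⟨s, hs, fun x y hxy => hsep x.1 y.1 (fun h => hxy (Subtype.ext h))⟩
      · exact ⟨r, fun x => x.2⟩
    have hc0 : 0 ≤ c := (hball 1 one_pos).nonneg
    exact ⟨3 * c, hasBAP_of_balls o hc0 hball⟩

end Vale.Agent.Lib.P090.Bdd
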