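import Vale.Agent.Lib.P090.Cover
import Vale.Agent.Lib.P090.Core
import Vale.Agent.Lib.P090.Avg

/-!
# Existence of sheets avoiding a given set of colour words
-/

set_option linter.unusedSectionVars false
set_option linter.unusedVariables false

namespace Vale.Agent.Lib.P090

open Finset

variable {V W : Type}

open Classical in
/-- The edge set as a finset. -/
noncomputable def edgesF [Fintype V] (G : SimpleGraph V) : Finset (Sym2 V) :=
  univ.filter (fun e => e ∈ G.edgeSet)

theorem mem_edgesF [Fintype V] {G : SimpleGraph V} {e : Sym2 V} : e ∈ edgesF G ↔ e ∈ G.edgeSet := by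
  simp [edgesF]

theorem handshake [Fintype V] (G : SimpleGraph V) :
    ∑ u, (nbrs G u).card = 2 * (edgesF G).card := by
  classical
  have h := G.sum_degrees_eq_twice_card_edges
  have e1 : ∀ u, (nbrs G u).card = G.degree u := by
    intro u
    rw [← SimpleGraph.card_neighborFinset_eq_degree]
    congr 1
    ext v
    simp [mem_nbrs]
  have e2 : edgesF G = G.edgeFinset := by
    ext e
    simp [mem_edgesF]
  simp_rw [e1]
  rw [h, e2]

theorem card_nbrs_of_cover [Fintype V] [Fintype W] {H : SimpleGraph V} {G : SimpleGraph W}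
    {p : V → W} (h : IsCover H G p) (v : V) : (nbrs H v).card = (nbrs G (p v)).card := by
  apply Finset.card_bij (fun w _ => p w)
  · intro a ha
    exact mem_nbrs.mpr (h.adj _ _ (mem_nbrs.mp ha))
  · intro a ha b hb e
    exact h.inj _ _ _ (mem_nbrs.mp ha) (mem_nbrs.mp hb) e
  · intro b hb
    obtain ⟨q, hq, e⟩ := h.surj _ _ (mem_nbrs.mp hb)
    exact ⟨q, mem_nbrs.mpr hq, e⟩

open Classical in
/-- Edges of `Z` at the vertex `u`. -/
noncomputable def atV (Z : Finset (Sym2 V)) (u : V) : Finset (Sym2 V) := Z.filter (fun e => u ∈ e)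

theorem mem_atV {Z : Finset (Sym2 V)} {u : V} {e : Sym2 V} : e ∈ atV Z u ↔ e ∈ Z ∧ u ∈ e := by
  simp [atV]

/-- The first edge of a list, as a finset of size at most one. -/
def firstEdge : List V → Finset (Sym2 V)
  | a :: b :: _ => {s(a, b)}
  | _ => ∅

theorem card_firstEdge_le (l : List V) : (firstEdge l).card ≤ 1 := by
  match l with
  | [] => simp [firstEdge]
  | [_] => simp [firstEdge]
  | _ :: _ :: _ => simp [firstEdge]

/-- Pass to a subgraph of bounded degree with no walk of a given family, losing few edges. -/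
theorem alteration [Fintype V] (H : SimpleGraph V) (D : ℕ) (hD : 0 < D)
    (Bk : Finset (List V)) (Z : Finset (Sym2 V)) (hZ : ∀ e ∈ Z, e ∈ H.edgeSet) :
    ∃ X : SimpleGraph V, X ≤ H ∧ (∀ u, (nbrs X u).card ≤ D) ∧
      (∀ l ∈ Bk, ∀ a b t, l = a :: b :: t → ¬ X.Adj a b) ∧
      (∀ u v, X.Adj u v → s(u, v) ∈ Z) ∧
      ((Z.card : ℝ) - Bk.card - (1 / (D : ℝ)) * ∑ u, ((atV Z u).card : ℝ) ^ 2 ≤ (edgesF X).card) := by
  classical
  have hD' : (0 : ℝ) < D := by exact_mod_cast hD
  set High := univ.filter (fun u => D < (atV Z u).card) with hHigh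
  set Hi := High.biUnion (fun u => atV Z u) with hHi
  set FE := Bk.biUnion firstEdge with hFE
  set A := Z \ (FE ∪ Hi) with hA
  have hAZ : ∀ e ∈ A, e ∈ Z := fun e he => (mem_sdiff.mp he).1
  have hAnotdiag : ∀ e ∈ A, ¬ e.IsDiag := by
    intro e he
    exact H.not_isDiag_of_mem_edgeSet (hZ e (hAZ e he))
  refine ⟨SimpleGraph.fromEdgeSet (A : Set (Sym2 V)), ?_, ?_, ?_, ?_, ?_⟩
  · intro u v huv
    rw [SimpleGraph.fromEdgeSet_adj] at huv
    exact hZ _ (hAZ _ huv.1)
  · intro u
    by_cases hu : D < (atV Z u).card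
    · have : nbrs (SimpleGraph.fromEdgeSet (A : Set (Sym2 V))) u = ∅ := by
        ext v
        simp only [mem_nbrs, SimpleGraph.fromEdgeSet_adj, notMem_empty, iff_false, not_and]
        intro hmem _
        have hmemA := mem_sdiff.mp hmem
        apply hmemA.2
        apply mem_union_right
        rw [hHi, mem_biUnion]
        exact ⟨u, by simp [hHigh, hu], mem_atV.mpr ⟨hmemA.1, by simp⟩⟩
      rw [this]; simp
    · push Not at hu
      refine le_trans ?_ hu
      have hinj : Set.InjOn (fun v => s(u, v)) (nbrs (SimpleGraph.fromEdgeSet (A : Set (Sym2 V))) u : Set V) := by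
        intro a _ b _ e
        simp only [Sym2.eq_iff] at e
        rcases e with ⟨_, h⟩ | ⟨h1, h2⟩
        · exact h
        · exact h2.trans h1
      rw [← Finset.card_image_of_injOn hinj]
      apply Finset.card_le_card
      intro e he
      obtain ⟨v, hv, rfl⟩ := mem_image.mp he
      have hv' := mem_nbrs.mp hv
      rw [SimpleGraph.fromEdgeSet_adj] at hv'
      exact mem_atV.mpr ⟨hAZ _ hv'.1, by simp⟩
  · intro l hl a b t e
    rw [SimpleGraph.fromEdgeSet_adj]
    rintro ⟨hmem, -⟩
    apply (mem_sdiff.mp hmem).2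
    apply mem_union_left
    rw [hFE, mem_biUnion]
    refine ⟨l, hl, ?_⟩
    subst e
    simp [firstEdge]
  · intro u v huv
    rw [SimpleGraph.fromEdgeSet_adj] at huv
    exact hAZ _ huv.1
  · -- counting
    have e1 : edgesF (SimpleGraph.fromEdgeSet (A : Set (Sym2 V))) = A := by
      ext e
      rw [mem_edgesF, SimpleGraph.edgeSet_fromEdgeSet]
      constructor
      · intro h; exact h.1
      · intro h; exact ⟨h, hAnotdiag e h⟩
    rw [e1]
    have c1 : FE.card ≤ Bk.card := by
      have := Finset.card_biUnion_le_card_mul Bk firstEdge 1 (fun l _ => card_firstEdge_le l)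
      simpa using this
    have c2 : (D : ℝ) * (Hi.card : ℝ) ≤ ∑ u, ((atV Z u).card : ℝ) ^ 2 := by
      have h1 : Hi.card ≤ ∑ u ∈ High, (atV Z u).card := Finset.card_biUnion_le
      have h2 : (D : ℝ) * (Hi.card : ℝ) ≤ ∑ u ∈ High, (D : ℝ) * ((atV Z u).card : ℝ) := by
        rw [← Finset.mul_sum]
        apply mul_le_mul_of_nonneg_left _ hD'.le
        exact_mod_cast h1
      refine h2.trans ?_
      refine le_trans (Finset.sum_le_sum (f := fun u => (D : ℝ) * ((atV Z u).card : ℝ))
        (g := fun u => ((atV Z u).card : ℝ) ^ 2) ?_) ?_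
      · intro u hu
        have hu' : D < (atV Z u).card := by simpa [hHigh] using hu
        have hu'' : (D : ℝ) ≤ ((atV Z u).card : ℝ) := by exact_mod_cast hu'.le
        have h0 : (0 : ℝ) ≤ ((atV Z u).card : ℝ) := by positivity
        nlinarith
      · exact Finset.sum_le_sum_of_subset_of_nonneg (Finset.subset_univ _)
          (fun _ _ _ => by positivity)
    have c3 : Z.card ≤ A.card + (FE ∪ Hi).card := by
      have := Finset.card_le_card_sdiff_add_card (s := Z) (t := FE ∪ Hi)
      rw [hA]
      exact this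
    have c4 : (FE ∪ Hi).card ≤ FE.card + Hi.card := Finset.card_union_le _ _
    have c5 : (Z.card : ℝ) ≤ A.card + (Bk.card + Hi.card) := by
      have : Z.card ≤ A.card + (Bk.card + Hi.card) := by omega
      exact_mod_cast this
    have c6 : (Hi.card : ℝ) ≤ (1 / (D : ℝ)) * ∑ u, ((atV Z u).card : ℝ) ^ 2 := by
      rw [one_div, ← div_eq_inv_mul, le_div_iff₀ hD']
      linarith
    linarith

/-! ### Counting walks -/

/-- All walks with `L + 1` vertices. -/
noncomputable def walkSet [Fintype V] (G : SimpleGraph V) (L : ℕ) : Finset (List V) := by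
  classical
  exact (List.finite_length_eq V (L + 1)).toFinset.filter (fun l => l.IsChain G.Adj)

theorem mem_walkSet [Fintype V] {G : SimpleGraph V} {L : ℕ} {l : List V} :
    l ∈ walkSet G L ↔ l.length = L + 1 ∧ l.IsChain G.Adj := by
  classical
  simp [walkSet]

theorem card_walkSet_le [Fintype V] (G : SimpleGraph V) (D : ℕ) (hdeg : ∀ u, (nbrs G u).card ≤ D)
    (L : ℕ) : (walkSet G L).card ≤ Fintype.card V * D ^ L := by
  classical
  induction L with
  | zero =>
    have : walkSet G 0 ⊆ (univ : Finset V).image (fun a => [a]) := by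
      intro l hl
      obtain ⟨h1, _⟩ := mem_walkSet.mp hl
      obtain ⟨a, rfl⟩ := List.length_eq_one_iff.mp h1
      simp
    simpa using (Finset.card_le_card this).trans Finset.card_image_le
  | succ L ih =>
    set f : List V → Finset (List V) := fun l =>
      match l with
      | [] => ∅
      | b :: t => (nbrs G b).image (fun a => a :: b :: t) with hf
    have hsub : walkSet G (L + 1) ⊆ (walkSet G L).biUnion f := by
      intro l hl
      obtain ⟨h1, h2⟩ := mem_walkSet.mp hl
      match l, h1, h2 with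
      | [], h1, _ => simp at h1
      | [_], h1, _ => simp at h1
      | a :: b :: t, h1, h2 =>
        rw [List.isChain_cons_cons] at h2
        rw [mem_biUnion]
        refine ⟨b :: t, mem_walkSet.mpr ⟨by simpa using h1, h2.2⟩, ?_⟩
        simp only [hf, mem_image]
        exact ⟨a, mem_nbrs.mpr h2.1.symm, rfl⟩
    have hcard : ∀ l ∈ walkSet G L, (f l).card ≤ D := by
      intro l _
      match l with
      | [] => simp [hf]
      | b :: t =>
        simp only [hf]
        exact Finset.card_image_le.trans (hdeg b)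
    calc (walkSet G (L + 1)).card ≤ ((walkSet G L).biUnion f).card := Finset.card_le_card hsub
      _ ≤ (walkSet G L).card * D := Finset.card_biUnion_le_card_mul _ _ _ hcard
      _ ≤ (Fintype.card V * D ^ L) * D := Nat.mul_le_mul_right _ ih
      _ = Fintype.card V * D ^ (L + 1) := by ring

/-- A walk in a locally injective graph is determined by its head and its colours. -/
theorem chain_eq_of_map_eq {F : Type} {p : V → F} {H : SimpleGraph V}
    (inj : ∀ a b₁ b₂, H.Adj a b₁ → H.Adj a b₂ → p b₁ = p b₂ → b₁ = b₂) :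
    ∀ {t₁ t₂ : List V} {a : V}, (a :: t₁).IsChain H.Adj → (a :: t₂).IsChain H.Adj →
      t₁.map p = t₂.map p → t₁ = t₂ := by
  intro t₁
  induction t₁ with
  | nil =>
    intro t₂ a _ _ e
    simp only [List.map_nil] at e
    exact (List.map_eq_nil_iff.mp e.symm).symm
  | cons b₁ s₁ ih =>
    intro t₂ a h₁ h₂ e
    cases t₂ with
    | nil => simp at e
    | cons b₂ s₂ =>
      rw [List.isChain_cons_cons] at h₁ h₂
      simp only [List.map_cons, List.cons.injEq] at e
      have hb : b₁ = b₂ := inj _ _ _ h₁.1 h₂.1 e.1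
      subst hb
      rw [ih h₁.2 h₂.2 e.2]

/-! ### Existence of a sheet -/

/-- A finite graph with a locally injective colouring over `Q`, of bounded degree and large average
degree, whose long reduced walks avoid the given colour words. -/
theorem exists_sheet {F : Type} [Fintype F] (Q : SimpleGraph F) (d₀ q : ℕ) (hd₀ : 0 < d₀)
    [Nonempty F]
    (hq : q = 16 * d₀ ^ 2) (hreg : ∀ a, (nbrs Q a).card = q)
    (Wd : ℕ → Finset (List F)) (C : ℕ) (hW : ∀ L, (Wd L).card ≤ C * (8 * d₀) ^ L) :
    ∃ (V : Type) (_ : Fintype V) (X : SimpleGraph V) (c : V → F),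
      Nonempty V ∧ (∀ u v, X.Adj u v → Q.Adj (c u) (c v)) ∧
      (∀ u v₁ v₂, X.Adj u v₁ → X.Adj u v₂ → c v₁ = c v₂ → v₁ = v₂) ∧
      (∀ u, (nbrs X u).card ≤ 8 * d₀) ∧
      (((3 : ℝ) * d₀ - 9) * Fintype.card V ≤ 4 * ∑ u, ((nbrs X u).card : ℝ)) ∧
      ∃ L, 1 ≤ L ∧ ∀ l : List V, l.IsChain X.Adj → NoBack l → l.length = L + 1 → l.map c ∉ Wd L := by
  classical
  -- the girth parameter
  set L : ℕ := C + 1 with hL
  obtain ⟨V, hfin, H, p, hcov, hgirth⟩ := exists_cover Q L
  letI : Fintype V := Fintype.ofFinite V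
  have hne : Nonempty V := by
    obtain ⟨a⟩ := ‹Nonempty F›
    obtain ⟨v, _⟩ := hcov.onto a
    exact ⟨v⟩
  obtain ⟨v₀⟩ := hne
  have hVpos : 0 < Fintype.card V := Fintype.card_pos_iff.mpr ⟨v₀⟩
  have hregH : ∀ v, (nbrs H v).card = q := fun v => by
    rw [card_nbrs_of_cover hcov, hreg]
  -- the edges
  set EE := edgesF H with hEE
  set I : V → Finset (Sym2 V) := fun v => atV EE v with hI
  have hIcard : ∀ v, (I v).card = q := by
    intro v
    rw [← hregH v]
    symm
    apply Finset.card_bij (fun w _ => s(v, w))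
    · intro w hw
      exact mem_atV.mpr ⟨mem_edgesF.mpr (mem_nbrs.mp hw), by simp⟩
    · intro a _ b _ e
      simp only [Sym2.eq_iff] at e
      rcases e with ⟨_, h⟩ | ⟨h1, h2⟩
      · exact h
      · exact h2.trans h1
    · intro e he
      obtain ⟨h1, h2⟩ := mem_atV.mp he
      obtain ⟨w, rfl⟩ := Sym2.mem_iff_exists.mp h2
      exact ⟨w, mem_nbrs.mpr (mem_edgesF.mp h1), rfl⟩
  have hEcard : 2 * EE.card = Fintype.card V * q := by
    rw [hEE, ← handshake H, Finset.sum_congr rfl (fun v _ => hregH v), Finset.sum_const,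
      Finset.card_univ, smul_eq_mul]
  -- the bad walks
  set Bd : Finset (List V) := (walkSet H L).filter
    (fun l => NoBack l ∧ l.map p ∈ Wd L) with hBd
  set ee : List V → Finset (Sym2 V) := fun l => (edgesOf l).toFinset with hee
  have heecard : ∀ l ∈ Bd, (ee l).card = L := by
    intro l hl
    obtain ⟨hl1, hl2⟩ := mem_filter.mp hl
    obtain ⟨h1, h2⟩ := mem_walkSet.mp hl1
    have hnd : l.Nodup := NoBack.nodup_of_noClosed hgirth h2 hl2.1 (by omega)
    have hend := edgesOf_nodup hnd
    rw [hee]
    simp only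
    rw [List.toFinset_card_of_nodup hend]
    match l, h1 with
    | a :: t, h1 =>
      rw [edgesOf_length]
      simpa using h1
  have hBdcard : Bd.card ≤ Fintype.card V * (Wd L).card := by
    have : Bd.card ≤ ((univ : Finset V) ×ˢ (Wd L)).card := by
      apply Finset.card_le_card_of_injOn (fun l => (l.headD v₀, l.map p))
      · intro l hl
        obtain ⟨_, hl2⟩ := mem_filter.mp hl
        simp [hl2.2]
      · intro l₁ hl₁ l₂ hl₂ e
        obtain ⟨hl₁1, _⟩ := mem_filter.mp hl₁
        obtain ⟨hl₂1, _⟩ := mem_filter.mp hl₂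
        obtain ⟨h₁1, h₁2⟩ := mem_walkSet.mp hl₁1
        obtain ⟨h₂1, h₂2⟩ := mem_walkSet.mp hl₂1
        simp only [Prod.mk.injEq] at e
        match l₁, l₂, h₁1, h₂1, h₁2, h₂2, e with
        | a :: t₁, b :: t₂, _, _, h₁2, h₂2, e =>
          simp only [List.headD_cons, List.map_cons, List.cons.injEq] at e
          obtain ⟨rfl, _, e3⟩ := e
          rw [chain_eq_of_map_eq hcov.inj h₁2 h₂2 e3]
    simpa using this
  -- averaging
  set D : ℕ := 8 * d₀ with hDdef
  have hDpos : 0 < D := by omega
  set m : ℕ := 2 * D with hm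
  have : NeZero m := ⟨by omega⟩
  obtain ⟨κ, hκ⟩ := exists_kappa (E := Sym2 V) m L q (D : ℝ) (by exact_mod_cast hDpos) EE I hIcard
    Bd ee heecard
  -- the random subset
  set Z := EE.filter (fun e => κ e = 0) with hZ
  set Bk := Bd.filter (fun b => ∀ e ∈ ee b, κ e = 0) with hBk
  have hatV : ∀ v, (I v).filter (fun e => κ e = 0) = atV Z v := by
    intro v
    ext e
    simp only [hI, mem_filter, mem_atV, hZ]
    tauto
  simp_rw [hatV] at hκ
  obtain ⟨X, hXH, hXdeg, hXbad, hXZ, hXcount⟩ := alteration H D hDpos Bk Z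
    (fun e he => mem_edgesF.mp (mem_filter.mp he).1)
  refine ⟨V, inferInstance, X, p, ⟨v₀⟩, ?_, ?_, hXdeg, ?_, L, by omega, ?_⟩
  · exact fun u v huv => hcov.adj _ _ (hXH huv)
  · exact fun u v₁ v₂ h₁ h₂ e => hcov.inj _ _ _ (hXH h₁) (hXH h₂) e
  · -- the edge count
    have hsum : (∑ u, ((nbrs X u).card : ℝ)) = 2 * ((edgesF X).card : ℝ) := by
      have := handshake X
      exact_mod_cast this
    rw [hsum]
    have hd₀' : (0 : ℝ) < d₀ := by exact_mod_cast hd₀
    have hDr : (D : ℝ) = 8 * d₀ := by rw [hDdef]; push_cast; ring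
    have hmr : (m : ℝ) = 16 * d₀ := by rw [hm, hDdef]; push_cast; ring
    have hqr : (q : ℝ) = 16 * d₀ ^ 2 := by rw [hq]; push_cast; ring
    have hVr : (0 : ℝ) < Fintype.card V := by exact_mod_cast hVpos
    -- first term
    have t1 : (EE.card : ℝ) / m = Fintype.card V * (d₀ / 2) := by
      have : (2 : ℝ) * EE.card = Fintype.card V * q := by exact_mod_cast hEcard
      have e : (EE.card : ℝ) = Fintype.card V * q / 2 := by linarith
      rw [e, hmr, hqr]
      field_simp
    -- second term
    have t2 : (Bd.card : ℝ) / (m : ℝ) ^ L ≤ Fintype.card V := by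
      have h1 : (Bd.card : ℝ) ≤ Fintype.card V * (C * (D : ℝ) ^ L) := by
        have := hBdcard.trans (Nat.mul_le_mul_left _ (hW L))
        exact_mod_cast this
      have hmpos : (0 : ℝ) < m := by rw [hmr]; positivity
      rw [div_le_iff₀ (by positivity)]
      refine h1.trans ?_
      apply mul_le_mul_of_nonneg_left _ hVr.le
      have h2 : (m : ℝ) ^ L = 2 ^ L * (D : ℝ) ^ L := by
        rw [hm]; push_cast; rw [mul_pow]
      rw [h2]
      apply mul_le_mul_of_nonneg_right _ (by positivity)
      have h3 : C ≤ 2 ^ L := by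
        have := Nat.lt_two_pow_self (n := L)
        omega
      exact_mod_cast h3
    -- third term
    have t3 : (1 / (D : ℝ)) * (Fintype.card V * ((q : ℝ) / m + ((q : ℝ) / m) ^ 2)) =
        Fintype.card V * ((1 + d₀) / 8) := by
      rw [hDr, hmr, hqr]
      field_simp
    have hfinal := hκ
    rw [t1, t3] at hfinal
    have c1 : (Bk.card : ℝ) = ((Bd.filter (fun b => ∀ e ∈ ee b, κ e = 0)).card : ℝ) := rfl
    have c2 : (Fintype.card V : ℝ) * (d₀ / 2) - Fintype.card V - Fintype.card V * ((1 + d₀) / 8) ≤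
        (edgesF X).card := by
      refine le_trans ?_ hXcount
      refine le_trans ?_ hfinal
      linarith
    nlinarith
  · intro l hc hn hlen hmem
    have hcH : l.IsChain H.Adj := hc.imp (fun _ _ h => hXH h)
    have hlB : l ∈ Bd := mem_filter.mpr ⟨mem_walkSet.mpr ⟨hlen, hcH⟩, hn, hmem⟩
    have hlZ : ∀ e ∈ ee l, κ e = 0 := by
      intro e he
      have he' : e ∈ edgesOf l := by simpa [hee] using he
      have key : ∀ {l : List V}, l.IsChain X.Adj → ∀ e ∈ edgesOf l, e ∈ Z := by
        intro l
        induction l with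
        | nil => intro _ e he; simp at he
        | cons a t ih =>
          intro h e he
          cases t with
          | nil => simp at he
          | cons b t =>
            rw [List.isChain_cons_cons] at h
            rw [edgesOf_cons2, List.mem_cons] at he
            rcases he with rfl | he
            · exact hXZ _ _ h.1
            · exact ih h.2 e he
      exact (mem_filter.mp (key hc e he')).2
    have hlBk : l ∈ Bk := mem_filter.mpr ⟨hlB, hlZ⟩
    match l, hlen, hc with
    | [], hlen, _ => simp at hlen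
    | [_], hlen, _ =>
      simp only [List.length_singleton] at hlen
      omega
    | a :: b :: t, _, hc =>
      exact hXbad _ hlBk a b t rfl (List.isChain_cons_cons.mp hc).1

end Vale.Agent.Lib.P090
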