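import Vale.Agent.Lib.P090.Walks

/-!
# Graph distance in locally tree-like graphs
-/

namespace Vale.Agent.Lib.P090

open List

variable {V : Type*} {G : SimpleGraph V}

theorem edist_le_of_adj_add {a a' b : V} (h : G.Adj a a') : G.edist a b ≤ G.edist a' b + 1 := by
  calc G.edist a b ≤ G.edist a a' + G.edist a' b := SimpleGraph.edist_triangle
    _ = 1 + G.edist a' b := by rw [SimpleGraph.edist_eq_one_iff_adj.mpr h]
    _ = G.edist a' b + 1 := add_comm _ _

theorem edist_le_of_chain : ∀ {t : List V} {a b : V}, (a :: t).IsChain G.Adj →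
    (a :: t).getLast? = some b → G.edist a b ≤ (t.length : ℕ∞) := by
  intro t
  induction t with
  | nil =>
    intro a b _ h
    simp at h
    subst h
    simp
  | cons w t ih =>
    intro a b hc hl
    rw [isChain_cons_cons] at hc
    rw [getLast?_cons_cons] at hl
    have := ih hc.2 hl
    calc G.edist a b ≤ G.edist w b + 1 := edist_le_of_adj_add hc.1
      _ ≤ (t.length : ℕ∞) + 1 := by gcongr
      _ = ((w :: t).length : ℕ∞) := by simp

/-- `a :: t` is a geodesic from `a` to `b`. -/
def Geo (G : SimpleGraph V) (a b : V) (t : List V) : Prop :=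
  (a :: t).IsChain G.Adj ∧ (a :: t).getLast? = some b ∧ G.edist a b = (t.length : ℕ∞)

theorem geo_tail {a b w : V} {t : List V} (h : Geo G a b (w :: t)) : Geo G w b t := by
  obtain ⟨hc, hl, he⟩ := h
  rw [isChain_cons_cons] at hc
  rw [getLast?_cons_cons] at hl
  refine ⟨hc.2, hl, le_antisymm (edist_le_of_chain hc.2 hl) ?_⟩
  have h1 : G.edist a b ≤ G.edist w b + 1 := edist_le_of_adj_add hc.1
  rw [he] at h1
  simp only [length_cons, Nat.cast_add, Nat.cast_one] at h1
  exact (ENat.add_le_add_iff_right (by simp)).mp h1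

theorem geo_exists : ∀ (k : ℕ) {a b : V}, G.edist a b = k → ∃ t, Geo G a b t ∧ t.length = k := by
  intro k
  induction k with
  | zero =>
    intro a b h
    have : a = b := by simpa using h
    subst this
    exact ⟨[], ⟨by simp, by simp, by simp⟩, rfl⟩
  | succ k ih =>
    intro a b h
    obtain ⟨p, hp⟩ := SimpleGraph.exists_walk_of_edist_eq_coe h
    cases p with
    | nil => simp at hp
    | @cons _ w _ hadj p' =>
      have hle : G.edist w b ≤ (k : ℕ∞) := by
        have := SimpleGraph.edist_le p'
        simp only [SimpleGraph.Walk.length_cons] at hp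
        have e : p'.length = k := by omega
        rwa [e] at this
      have hge : (k : ℕ∞) ≤ G.edist w b := by
        have h1 := edist_le_of_adj_add (b := b) hadj
        rw [h] at h1
        simp only [Nat.cast_add, Nat.cast_one] at h1
        exact (ENat.add_le_add_iff_right (by simp)).mp h1
      obtain ⟨t, ⟨hc, hl, he⟩, hk⟩ := ih (le_antisymm hle hge)
      refine ⟨w :: t, ⟨?_, ?_, ?_⟩, by simp [hk]⟩
      · rw [isChain_cons_cons]; exact ⟨hadj, hc⟩
      · rw [getLast?_cons_cons]; exact hl
      · rw [h]; simp [hk]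

theorem geo_noBack : ∀ {t : List V} {a b : V}, Geo G a b t → NoBack (a :: t) := by
  intro t
  induction t with
  | nil => intro _ _ _; simp
  | cons w t ih =>
    intro a b h
    cases t with
    | nil => simp
    | cons z t =>
      refine ⟨?_, ih (geo_tail h)⟩
      intro e
      subst e
      have h2 := geo_tail (geo_tail h)
      have h3 := h.2.2
      rw [h2.2.2] at h3
      simp only [length_cons, Nat.cast_add, Nat.cast_one] at h3
      have : (t.length : ℕ∞) = ((t.length + 1 + 1 : ℕ) : ℕ∞) := by
        simpa using h3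
      have := Nat.cast_injective this
      omega

/-- Two neighbours cannot be at the same small distance from a point. -/
theorem NoClosed.edist_ne {g : ℕ} (hG : NoClosed G g) {a a' b : V} {k : ℕ} (hadj : G.Adj a a')
    (hk : G.edist a b = k) (hg : 2 * k + 1 ≤ g) : G.edist a' b ≠ k := by
  intro hk'
  obtain ⟨t, ht, hlen⟩ := geo_exists k hk
  obtain ⟨t', ht', hlen'⟩ := geo_exists k hk'
  have hn : NoBack (a :: a' :: t') := by
    cases t' with
    | nil => simp
    | cons s t'' =>
      refine ⟨?_, geo_noBack ht'⟩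
      intro e
      subst e
      have h2 := geo_tail ht'
      simp only [length_cons] at hlen'
      have : (t''.length : ℕ∞) = (k : ℕ∞) := by rw [← hk]; exact h2.2.2.symm
      have := Nat.cast_injective this
      omega
  have hc : (a :: a' :: t').IsChain G.Adj := by
    rw [isChain_cons_cons]; exact ⟨hadj, ht'.1⟩
  have := hG.unique ht.1 hc (geo_noBack ht) hn (by simp)
    (by rw [ht.2.1, getLast?_cons_cons]; exact ht'.2.1.symm) (by simp; omega)
  have := congrArg List.length this
  simp at this
  omega

/-- A point has at most one neighbour closer to a given point. -/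
theorem NoClosed.eq_of_closer {g : ℕ} (hG : NoClosed G g) {a a' a'' b : V} {k : ℕ}
    (h' : G.Adj a a') (h'' : G.Adj a a'') (hk : G.edist a b = k)
    (c' : G.edist a' b < k) (c'' : G.edist a'' b < k) (hg : 2 * k ≤ g) : a' = a'' := by
  -- the distance from a neighbour is exactly `k - 1`
  have key : ∀ {w : V}, G.Adj a w → G.edist w b < k →
      ∃ t, (a :: w :: t).IsChain G.Adj ∧ NoBack (a :: w :: t) ∧
        (a :: w :: t).getLast? = some b ∧ t.length + 1 = k := by
    intro w hw hc
    obtain ⟨j, hj⟩ := ENat.ne_top_iff_exists.mp (ne_top_of_lt hc)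
    rw [← hj] at hc
    have hjk : j < k := by exact_mod_cast hc
    have h1 := edist_le_of_adj_add (b := b) hw
    rw [hk, ← hj] at h1
    have hkj : k ≤ j + 1 := by exact_mod_cast h1
    obtain ⟨t, ht, hlen⟩ := geo_exists j hj.symm
    have hgeo : Geo G a b (w :: t) := by
      refine ⟨?_, ?_, ?_⟩
      · rw [isChain_cons_cons]; exact ⟨hw, ht.1⟩
      · rw [getLast?_cons_cons]; exact ht.2.1
      · rw [hk]
        have e : k = (w :: t).length := by simp; omega
        rw [← e]
    exact ⟨t, hgeo.1, geo_noBack hgeo, hgeo.2.1, by omega⟩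
  obtain ⟨t', hc', hn', hl', hlen'⟩ := key h' c'
  obtain ⟨t'', hc'', hn'', hl'', hlen''⟩ := key h'' c''
  have := hG.unique hc' hc'' hn' hn'' (by simp) (by rw [hl', hl''])
    (by simp; omega)
  simp only [cons.injEq, true_and] at this
  exact this.1

theorem edist_comm' {a b : V} : G.edist a b = G.edist b a := SimpleGraph.edist_comm

/-- An edge `w w'` that separates the two sides of the edge `x x'` is that edge. -/
theorem NoClosed.crossing {g : ℕ} (hG : NoClosed G g) {x x' w w' : V} {k : ℕ}
    (hx : G.Adj x x') (hw : G.Adj w w')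
    (h₁ : ¬ G.edist x' w < G.edist x w) (h₂ : G.edist x' w' < G.edist x w')
    (hk : G.edist x w = k) (hg : 2 * k + 3 ≤ g) : w = x ∧ w' = x' := by
  -- `edist x' w = k + 1`
  have h3 : G.edist x' w ≠ k := hG.edist_ne hx hk (by omega)
  have h4 : (k : ℕ∞) ≤ G.edist x' w := by rw [← hk]; exact not_lt.mp h₁
  have h5 : G.edist x' w ≤ (k : ℕ∞) + 1 := by
    have := edist_le_of_adj_add (b := w) hx.symm
    rwa [hk] at this
  obtain ⟨a, ha⟩ := ENat.ne_top_iff_exists.mp (ne_top_of_le_ne_top (by simp) h5)
  rw [← ha] at h3 h4 h5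
  have ha1 : a = k + 1 := by
    have i1 : k ≤ a := by exact_mod_cast h4
    have i2 : a ≤ k + 1 := by exact_mod_cast h5
    have i3 : a ≠ k := by exact_mod_cast h3
    omega
  subst ha1
  -- `edist x' w' = k`, `edist x w' = k + 1`
  have h6 : G.edist x w' ≤ (k : ℕ∞) + 1 := by
    have := edist_le_of_adj_add (b := x) hw.symm
    rw [SimpleGraph.edist_comm (u := w'), SimpleGraph.edist_comm (u := w), hk] at this
    exact this
  obtain ⟨b, hb⟩ := ENat.ne_top_iff_exists.mp (ne_top_of_lt h₂)
  obtain ⟨c, hc⟩ := ENat.ne_top_iff_exists.mp (ne_top_of_le_ne_top (by simp) h6)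
  rw [← hb, ← hc] at h₂
  rw [← hc] at h6
  have i1 : b < c := by exact_mod_cast h₂
  have i2 : c ≤ k + 1 := by exact_mod_cast h6
  have h7 : G.edist x' w ≤ (b : ℕ∞) + 1 := by
    have := edist_le_of_adj_add (b := x') hw
    rw [SimpleGraph.edist_comm (u := w), SimpleGraph.edist_comm (u := w'), ← hb] at this
    exact this
  rw [← ha] at h7
  have i3 : k + 1 ≤ b + 1 := by exact_mod_cast h7
  have hbk : b = k := by omega
  have hck : c = k + 1 := by omega
  subst hbk
  subst hck
  rcases Nat.eq_zero_or_pos b with hb0 | hbpos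
  · subst hb0
    constructor
    · have : G.edist x w = 0 := by simpa using hk
      exact (SimpleGraph.edist_eq_zero_iff.mp this).symm
    · have : G.edist x' w' = 0 := by simpa using hb.symm
      exact (SimpleGraph.edist_eq_zero_iff.mp this).symm
  · exfalso
    -- step from `w'` towards `x'`
    have hb' : G.edist w' x' = (b : ℕ∞) := by rw [SimpleGraph.edist_comm]; exact hb.symm
    obtain ⟨t, ht, hlen⟩ := geo_exists b hb'
    cases t with
    | nil => simp at hlen; omega
    | cons s t =>
      have hs := geo_tail ht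
      have hadj : G.Adj w' s := (isChain_cons_cons.mp ht.1).1
      have hsd : G.edist s x' = ((b - 1 : ℕ) : ℕ∞) := by
        rw [hs.2.2]; simp at hlen; congr 1; omega
      have c1 : G.edist s x ≤ (b : ℕ∞) := by
        have h8 : G.edist s x ≤ G.edist s x' + 1 := by
          rw [SimpleGraph.edist_comm (u := s), SimpleGraph.edist_comm (u := s)]
          exact edist_le_of_adj_add hx
        rw [hsd] at h8
        refine h8.trans ?_
        have : ((b - 1 + 1 : ℕ) : ℕ∞) = (b : ℕ∞) := by congr 1; omega
        rw [← this]; simp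
      have c2 : G.edist w x = (b : ℕ∞) := by rw [SimpleGraph.edist_comm]; exact hk
      have d : G.edist w' x = ((b + 1 : ℕ) : ℕ∞) := by rw [SimpleGraph.edist_comm]; exact hc.symm
      have lt : (b : ℕ∞) < ((b + 1 : ℕ) : ℕ∞) := by exact_mod_cast Nat.lt_succ_self b
      have hsw : s = w := hG.eq_of_closer hadj hw.symm d (lt_of_le_of_lt c1 lt) (c2 ▸ lt) (by omega)
      subst hsw
      -- contradiction: `edist s x' = b - 1` versus `edist x' s = b + 1`
      rw [SimpleGraph.edist_comm, ← ha] at hsd
      have : b + 1 = b - 1 := by exact_mod_cast hsd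
      omega

section Colour

variable {W : Type*} {Q : SimpleGraph W} {c : V → W}

theorem edist_color_le (hom : ∀ p q, G.Adj p q → Q.Adj (c p) (c q)) (p q : V) :
    Q.edist (c p) (c q) ≤ G.edist p q := by
  by_cases h : G.Reachable p q
  · obtain ⟨w, hw⟩ := h.exists_walk_length_eq_edist
    rw [← hw, ← SimpleGraph.Walk.length_map (⟨c, by intro a b hab; exact hom a b hab⟩ : G →g Q)]
    exact SimpleGraph.edist_le _
  · rw [SimpleGraph.edist_eq_top_of_not_reachable h]; exact le_top

/-- Two points of a locally injective cover-like map, with the same colour, and at small distance,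
coincide. -/
theorem eq_of_color_eq {g : ℕ} (hQ : NoClosed Q g)
    (hom : ∀ p q, G.Adj p q → Q.Adj (c p) (c q))
    (loc : ∀ p q₁ q₂, G.Adj p q₁ → G.Adj p q₂ → c q₁ = c q₂ → q₁ = q₂)
    {y₁ y₂ : V} {k : ℕ} (hd : G.edist y₁ y₂ = k) (hk : k ≤ g) (hc : c y₁ = c y₂) : y₁ = y₂ := by
  obtain ⟨t, ht, hlen⟩ := geo_exists k hd
  cases t with
  | nil =>
    have : y₁ = y₂ := by
      have := ht.2.1
      simpa using this
    exact this
  | cons s t =>
    exfalso
    have hn := geo_noBack ht
    have hm := NoBack.map_of_locInj (R := G.Adj) c loc (fun _ _ h => h.symm) ht.1 hn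
    have hch : ((y₁ :: s :: t).map c).IsChain Q.Adj :=
      List.isChain_map_of_isChain c (fun a b hab => hom a b hab) ht.1
    refine hQ _ hch hm (by simp) (by simp at hlen ⊢; omega) ?_
    have h1 := ht.2.1
    have h2 : ((y₁ :: s :: t).map c).getLast? = some (c y₂) := by
      rw [List.getLast?_map, h1]; rfl
    rw [h2]
    simp [hc]

end Colour

end Vale.Agent.Lib.P090
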