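import Mathlib

/-!
# Reduced walks as lists

Walks in a simple graph are lists of vertices (`List.IsChain G.Adj`), and a walk is reduced when
it never backtracks (`NoBack`).  `NoClosed G g` says there is no closed reduced walk of positive
length at most `g`.  From this we get uniqueness of short reduced walks.
-/

namespace Vale.Agent.Lib.P090

open List

variable {V : Type*}

/-- A list never returns to the vertex it occupied two steps earlier. -/
def NoBack : List V → Prop
  | a :: b :: c :: t => a ≠ c ∧ NoBack (b :: c :: t)
  | _ => True

@[simp] theorem noBack_nil : NoBack ([] : List V) := trivial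
@[simp] theorem noBack_single (a : V) : NoBack [a] := trivial
@[simp] theorem noBack_pair (a b : V) : NoBack [a, b] := trivial
@[simp] theorem noBack_cons3 (a b c : V) (t : List V) :
    NoBack (a :: b :: c :: t) ↔ a ≠ c ∧ NoBack (b :: c :: t) := Iff.rfl

theorem NoBack.tail {a : V} {t : List V} (h : NoBack (a :: t)) : NoBack t := by
  match t, h with
  | [], _ => trivial
  | [_], _ => trivial
  | _ :: _ :: _, h => exact h.2

theorem NoBack.of_append_left : ∀ {l₁ l₂ : List V}, NoBack (l₁ ++ l₂) → NoBack l₁
  | [], _, _ => trivial
  | [_], _, _ => trivial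
  | [_, _], _, _ => trivial
  | _ :: _ :: c :: t, l₂, h => by
      have h' : _ ∧ NoBack (_ :: c :: t ++ l₂) := h
      exact ⟨h'.1, NoBack.of_append_left (l₂ := l₂) h'.2⟩

/-- Glue two reduced lists along an overlap of two vertices. -/
theorem NoBack.glue : ∀ {s : List V} {a b : V} {t : List V},
    NoBack (s ++ [a, b]) → NoBack (a :: b :: t) → NoBack (s ++ a :: b :: t)
  | [], _, _, _, _, h₂ => h₂
  | [x], a, b, t, h₁, h₂ => by
      have h₁' : x ≠ b ∧ NoBack [a, b] := h₁
      exact ⟨h₁'.1, h₂⟩
  | x :: y :: s, a, b, t, h₁, h₂ => by
      cases s with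
      | nil =>
        have h₁' : x ≠ a ∧ NoBack [y, a, b] := h₁
        have := NoBack.glue (s := [y]) (a := a) (b := b) (t := t) h₁'.2 h₂
        exact ⟨h₁'.1, this⟩
      | cons z s =>
        have h₁' : x ≠ z ∧ NoBack (y :: z :: s ++ [a, b]) := h₁
        have := NoBack.glue (s := y :: z :: s) (a := a) (b := b) (t := t) h₁'.2 h₂
        exact ⟨h₁'.1, this⟩

theorem NoBack.reverse : ∀ {l : List V}, NoBack l → NoBack l.reverse
  | [], _ => trivial
  | [_], _ => by simp
  | [_, _], _ => by simp
  | x :: y :: z :: t, h => by
      have h' : x ≠ z ∧ NoBack (y :: z :: t) := h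
      have ih := NoBack.reverse h'.2
      have e1 : (y :: z :: t).reverse = t.reverse ++ [z, y] := by simp
      have e2 : (x :: y :: z :: t).reverse = t.reverse ++ z :: y :: [x] := by simp
      rw [e2]
      rw [e1] at ih
      exact NoBack.glue ih ⟨h'.1.symm, trivial⟩

/-- Image of a reduced walk under a locally injective map. -/
theorem NoBack.map_of_locInj {W : Type*} {R : V → V → Prop} (c : V → W)
    (hinj : ∀ p q₁ q₂, R p q₁ → R p q₂ → c q₁ = c q₂ → q₁ = q₂)
    (hsymm : ∀ p q, R p q → R q p) :
    ∀ {l : List V}, l.IsChain R → NoBack l → NoBack (l.map c)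
  | [], _, _ => trivial
  | [_], _, _ => by simp
  | [_, _], _, _ => by simp
  | x :: y :: z :: t, hc, hn => by
      have hn' : x ≠ z ∧ NoBack (y :: z :: t) := hn
      rw [isChain_cons_cons, isChain_cons_cons] at hc
      have ih := NoBack.map_of_locInj c hinj hsymm (l := y :: z :: t)
        (by rw [isChain_cons_cons]; exact hc.2) hn'.2
      refine ⟨?_, ih⟩
      intro e
      exact hn'.1 (hinj y x z (hsymm _ _ hc.1) hc.2.1 e)

/-- A closed reduced walk of positive length at most `g` does not exist. -/
def NoClosed (G : SimpleGraph V) (g : ℕ) : Prop :=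
  ∀ l : List V, l.IsChain G.Adj → NoBack l → 2 ≤ l.length → l.length ≤ g + 1 →
    l.head? ≠ l.getLast?

theorem NoClosed.mono {G : SimpleGraph V} {g g' : ℕ} (h : NoClosed G g) (hg : g' ≤ g) :
    NoClosed G g' := fun l hc hn h2 hl => h l hc hn h2 (by omega)

theorem isChain_reverse_adj {G : SimpleGraph V} {l : List V} (h : l.IsChain G.Adj) :
    l.reverse.IsChain G.Adj := by
  rw [List.isChain_reverse]
  exact h.imp (fun _ _ hab => hab.symm)

/-- Uniqueness of short reduced walks with the same endpoints. -/
theorem NoClosed.unique {G : SimpleGraph V} {g : ℕ} (hG : NoClosed G g) :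
    ∀ {l₁ l₂ : List V}, l₁.IsChain G.Adj → l₂.IsChain G.Adj → NoBack l₁ → NoBack l₂ →
      l₁.head? = l₂.head? → l₁.getLast? = l₂.getLast? → l₁.length + l₂.length ≤ g + 2 → l₁ = l₂ := by
  intro l₁
  induction l₁ with
  | nil =>
    intro l₂ _ _ _ _ hh _ _
    cases l₂ with
    | nil => rfl
    | cons a t => simp at hh
  | cons a t₁ ih =>
    intro l₂ hc₁ hc₂ hn₁ hn₂ hh hl hlen
    cases l₂ with
    | nil => simp at hh
    | cons a' t₂ =>
      simp only [head?_cons, Option.some.injEq] at hh
      subst hh
      cases t₁ with
      | nil =>
        cases t₂ with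
        | nil => rfl
        | cons b t =>
          exfalso
          refine hG (a :: b :: t) hc₂ hn₂ (by simp) (by simp at hlen ⊢; omega) ?_
          rw [← hl]; simp
      | cons b₁ s₁ =>
        cases t₂ with
        | nil =>
          exfalso
          refine hG (a :: b₁ :: s₁) hc₁ hn₁ (by simp) (by simp at hlen ⊢; omega) ?_
          rw [hl]; simp
        | cons b₂ s₂ =>
          by_cases hb : b₁ = b₂
          · subst hb
            have := ih (l₂ := b₁ :: s₂) (isChain_cons_cons.mp hc₁).2 (isChain_cons_cons.mp hc₂).2
              hn₁.tail hn₂.tail (by simp) (by simpa using hl) (by simp at hlen ⊢; omega)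
            rw [this]
          · exfalso
            -- the closed walk `last ... b₁ a b₂ ... last`
            set L := (a :: b₁ :: s₁).reverse ++ (b₂ :: s₂) with hL
            have e : (a :: b₁ :: s₁).reverse = s₁.reverse ++ [b₁, a] := by simp
            have hchain : L.IsChain G.Adj := by
              rw [hL, e]
              have h1 := isChain_reverse_adj hc₁
              rw [e] at h1
              have h2 : (b₂ :: s₂).IsChain G.Adj := (isChain_cons_cons.mp hc₂).2
              have hab : G.Adj a b₂ := (isChain_cons_cons.mp hc₂).1
              rw [List.isChain_append]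
              refine ⟨h1, h2, ?_⟩
              intro x hx y hy
              simp only [getLast?_append, getLast?_cons_cons, getLast?_singleton, Option.mem_def] at hx
              simp at hx hy
              subst hx; subst hy; exact hab
            have hnb : NoBack L := by
              rw [hL, e]
              have h1 := hn₁.reverse
              have e' : s₁.reverse ++ [b₁, a] ++ b₂ :: s₂ = s₁.reverse ++ b₁ :: a :: b₂ :: s₂ := by simp
              rw [e']
              rw [e] at h1
              exact NoBack.glue h1 ⟨hb, hn₂⟩
            have hlenL : L.length = (a :: b₁ :: s₁).length + (b₂ :: s₂).length := by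
              rw [hL, List.length_append, List.length_reverse]
            refine hG L hchain hnb ?_ ?_ ?_
            · rw [hlenL]; simp; omega
            · rw [hlenL]; simp at hlen ⊢; omega
            · have h1 : L.head? = (a :: b₁ :: s₁).getLast? := by
                rw [hL, List.head?_append_of_ne_nil _ (by simp), List.head?_reverse]
              have h2 : L.getLast? = (a :: b₂ :: s₂).getLast? := by
                rw [hL, List.getLast?_append_of_ne_nil _ (by simp), List.getLast?_cons_cons]
              rw [h1, h2, hl]

theorem NoBack.nodup_of_noClosed {G : SimpleGraph V} {g : ℕ} (hG : NoClosed G g) :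
    ∀ {l : List V}, l.IsChain G.Adj → NoBack l → l.length ≤ g + 1 → l.Nodup := by
  intro l
  induction l with
  | nil => simp
  | cons a t ih =>
    intro hc hn hlen
    rw [nodup_cons]
    refine ⟨?_, ih (isChain_of_isChain_cons hc) hn.tail (by simp at hlen; omega)⟩
    intro hmem
    obtain ⟨s, s', rfl⟩ := List.append_of_mem hmem
    have e : a :: (s ++ a :: s') = (a :: s ++ [a]) ++ s' := by simp
    rw [e] at hc hn
    have hc' := (List.isChain_append.mp hc).1
    have hn' := NoBack.of_append_left hn
    refine hG (a :: s ++ [a]) hc' hn' (by simp) ?_ ?_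
    · simp at hlen ⊢; omega
    · have e2 : a :: s ++ [a] = a :: (s ++ [a]) := by simp
      rw [e2, List.getLast?_cons, List.getLast?_concat]
      simp

end Vale.Agent.Lib.P090
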